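import Vale.Agent.P014Y.Pr.Core
import Vale.Agent.P014U.Pq.Pn
import Vale.Agent.P004F.Pn.Pn0

/-!
# P014Y, block PRES: the presentation over an imaginary quadratic field at an odd prime (helper24)

The words `Zs`, `Zn`, `Gd`, `Bj` are those of `P004F.Pr`, `P004F.Pn`.
-/

set_option linter.all false

noncomputable section

namespace Vale.Agent.P014Y.Pr

open NumberField Module Cardinal
open Vale.Agent.P022 Vale.Agent.P022K Vale.Agent.P022K.G2
open Vale.Agent.P022K.G2.Hb Vale.Agent.P022K.G2.Cx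
open Vale.Agent.P022D.W (dec)
open Vale.Agent.P022E.GW (Ov)
open Vale.Agent.P014U
open X4F.Pr (F2 Iu ac ac_zero ac_add zero_ac mp Zk Bk cnt fin_of)
open scoped Pointwise Classical

export Vale.Agent.P004F.Pr (Zs Zn Gd)
export Vale.Agent.P004F.Pn (Bj)

variable [Pp] {R : Type} [CommRing R] {n μ ν κ : Type} [Fintype n] [DecidableEq n]
  [Fintype μ] [Fintype ν] {Γ : Subgroup GQ} {T : Finset ℕ} {a : GQ → Matrix n n R}
  {P : κ → Ideal (𝓞 Qb)} {b : κ → GQ → Matrix n μ R} {N : Matrix ν μ R}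

/-- an imaginary quadratic field, `pp ∈ T`, a representation unramified outside `T` -/
structure Ge (Γ : Subgroup GQ) (T : Finset ℕ) (a : GQ → Matrix n n R) : Prop where
  opn : IsOpen (Γ : Set GQ)
  idx : Γ.index = 2
  cx : ∀ w, Γ ⊓ St (ip w) = ⊥
  pm : pp ∈ T
  pr : ∀ l ∈ T, l.Prime
  one : a 1 = 1
  mul : ∀ g ∈ Γ, ∀ h ∈ Γ, a (g * h) = a g * a h
  lc : ∃ W : Subgroup GQ, IsOpen (W : Set GQ) ∧ ∀ w ∈ Γ, w ∈ W → a w = 1
  unr : ∀ g ∈ Γ, g ∈ In T → a g = 1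

theorem Ge.of (h : Gd Γ T a) (hp : pp ∈ T) : Ge Γ T a :=
  ⟨h.opn, h.idx, h.cx, hp, h.pr, h.one, h.mul, h.lc, h.unr⟩

theorem Ge.gq (h : Ge Γ T a) : Pq.Gd Γ T a :=
  ⟨h.opn, Subgroup.normal_of_index_eq_two h.idx, h.pr, h.one, h.mul, h.lc, h.unr⟩

theorem Ge.map {R' : Type} [CommRing R'] (h : Ge Γ T a) (σ : R →+* R') :
    Ge Γ T fun g => (a g).map σ :=
  have k := h.gq.map σ
  ⟨h.opn, h.idx, h.cx, h.pm, h.pr, k.one, k.mul, k.lc, k.unr⟩

/-- the dual of the residual module, twisted by the roots of unity, has no invariants, or some tame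
place of degree one above `T` with trivial residual action carries no condition -/
def Rel (Γ : Subgroup GQ) (T : Finset ℕ) (a : GQ → Matrix n n F2) (P : κ → Ideal (𝓞 Qb)) : Prop :=
  (∀ v : n → F2, (∀ g ∈ Γ, Matrix.vecMul v (a g) = om pp F2 g • v) → v = 0) ∨
    ∃ l ∈ T, l ≠ pp ∧ ∃ Q, Ov l Q ∧ dec Q ≤ Γ ∧ (∀ g ∈ dec Q, a g = 1) ∧
      ∀ i, ∀ g ∈ Γ, Q ≠ g • P i

/-- `(Q, u, w)` is a minimal presentation with its universal element -/
structure Pres (π : R →+* F2) (Γ : Subgroup GQ) (T : Finset ℕ) (a : GQ → Matrix n n R)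
    (P : κ → Ideal (𝓞 Qb)) (b : κ → GQ → Matrix n μ R) (N : Matrix ν μ R) {g r : ℕ}
    (Q : Matrix (Fin r) (Fin g) R) (u : GQ → Matrix n (Fin g) R) (w : Matrix μ (Fin g) R) :
    Prop where
  min : Q.map π = 0
  bij : ∀ (M : Type) [AddCommGroup M] [Module R M],
    Set.BijOn (fun y : Fin g → M => (fun γ => ac (u γ) y, ac w y))
      {y | ac Q y = 0 ∧ ac (N * w) y = 0} {x | x ∈ Zs M Γ T a P b ∧ ac N x.2 = 0}
  crd : Nat.card (Zs F2 Γ T (fun γ => (a γ).map π) P fun i γ => (b i γ).map π) = pp ^ g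

/-- the residual count: obstructions against cocycles -/
theorem res_cnt [Fintype κ] {a : GQ → Matrix n n F2} {b : κ → GQ → Matrix n μ F2}
    (c2 : Fintype.card n ≤ 2) (h : Ge Γ T a) (ov : ∀ i, ∃ l ∈ T, Ov l (P i))
    (un : ∀ i j, ∀ g ∈ Γ, P j = g • P i → i = j) {s : ℕ}
    (hs : ∑ i, (if Ov pp (P i) then Γ.relIndex (dec (P i)) else 0) ≤ s)
    (coc : ∀ i, ∀ g ∈ Γ ⊓ dec (P i), ∀ h ∈ Γ ⊓ dec (P i), b i (g * h) = b i g + a g * b i h)
    (lc : ∀ i, ∃ W : Subgroup GQ, IsOpen (W : Set GQ) ∧ ∀ g ∈ Γ ⊓ dec (P i),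
      ∀ w ∈ Γ ⊓ dec (P i), w ∈ W → b i (g * w) = b i g) (rel : Rel Γ T a P) :
    rq (Zc (Iu Γ T) Γ (fun i => Γ ⊓ dec (P i)) fun g => (a g).mulVecLin)
      (Bk (Iu Γ T) Γ (fun i => Γ ⊓ dec (P i)) (fun g => (a g).mulVecLin)
        fun i g => (b i g).mulVecLin) + Fintype.card μ + 2 * Fintype.card n ≤
      rk (Pq.Zs F2 Γ T a (fun i => dec (P i)) b) +
        (Fintype.card κ + s : ℕ) * Fintype.card n := by
  have r := Pq.gd_rp h.gq
  have k1 := core (y := fun i => fp (P i)) h.opn h.idx h.cx h.pm h.pr inferInstance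
    (by rwa [finrank_fintype_fun_eq_card]) r (fun i => mem_ab_fp.2 (ov i))
    (fun i j g hg c => un i j g hg (Sum.inl.inj c))
    (rel.imp (fun c => (Submodule.eq_bot_iff _).2 fun f hf => ?_)
      fun ⟨l, hl, l2, Q, o, d, t, e⟩ => ⟨l, hl, l2, Q, o, d, fun x m => by
        rw [t x m]; exact Matrix.mulVecLin_one, fun i g hg c => e i g hg (Sum.inl.inj c)⟩)
  · have k0 : ((∑ i, wt Γ (fp (P i)) : ℕ) : Cardinal) ≤ (Fintype.card κ + s : ℕ) := by
      refine le_trans (le_of_eq ?_) (Nat.cast_le.2 (Nat.add_le_add_left hs _))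
      rw [Fintype.card, Finset.card_eq_sum_ones, ← Finset.sum_add_distrib, Nat.cast_sum,
        Nat.cast_sum]
      refine Finset.sum_congr rfl fun i _ => ?_
      obtain ⟨l, -, o⟩ := ov i
      rw [wt_fp o, Nat.cast_add, Nat.cast_one]
      exact congrArg (fun m : ℕ => (1 + m : Cardinal))
        (if_congr ⟨fun c => c ▸ o, fun c => GW.Pl.ov_uniq o c⟩ rfl rfl)
    replace k1 := k1.trans (add_le_add_right (mul_le_mul_left k0 _) _)
    simp only [st_fp] at k1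
    have k2 := cnt (b := fun i g => (b i g).mulVecLin) r
      (fun i => (inf_le_left : Γ ⊓ dec (P i) ≤ Γ)) fun i l => z1_of r.one ?_ fun x hx y hy => ?_
    · rw [← Pq.zs_eq h.gq] at k2
      rw [rank_fun'] at k1 k2
      refine can (Pq.fin_z h.opn h.pr inferInstance r) ?_
      generalize rk (Z1 (Iu Γ T) Γ fun g => (a g).mulVecLin) = z,
        ((Fintype.card κ + s : ℕ) : Cardinal) * Fintype.card n = m at *
      calc _ = _ + (z + Fintype.card μ) + 2 * (Fintype.card n : Cardinal) := by ring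
        _ ≤ _ := add_le_add_left k2 _
        _ = _ + 2 * (Fintype.card n : Cardinal) + _ := add_right_comm _ _ _
        _ ≤ _ := add_le_add_left k1 _
        _ = _ := by ring
    · obtain ⟨W, oW, bw⟩ := lc i
      obtain ⟨W', hW', le⟩ := ex_lv' oW
      exact ⟨W', hW', fun x hx y hy m => by simp only [bw x hx y hy (le m)]⟩
    · simp [d1_apply, coc i x hx y hy, Matrix.add_mulVec]
  · have := c (fun i => f (Pi.single i 1)) fun x hx => funext fun i => by
      have := hf x hx (Pi.single i 1)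
      rw [Pi.smul_apply, smul_eq_mul, ← this, pi_eq_sum_univ' (Matrix.mulVecLin _ _), map_sum]
      simp [Matrix.vecMul, dotProduct, mul_comm]
    exact LinearMap.pi_ext' fun i => LinearMap.ext_ring (congrFun this i)

/-- finiteness, any rank -/
theorem zs_fin {a : GQ → Matrix n n F2} {b : κ → GQ → Matrix n μ F2} (h : Ge Γ T a) :
    Finite (Zs F2 Γ T a P b) := Pq.zs_fin (P := fun i => dec (P i)) (b := b) h.gq

/-- **the number of generators is bounded** when a bounded number of primes is added, any rank -/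
theorem bnd {a : GQ → Matrix n n F2} (h : Ge Γ T a) : ∃ C : ℕ, ∀ (μ κ : Type) [Fintype μ]
    (T' : Finset ℕ) (P : κ → Ideal (𝓞 Qb)) (b : κ → GQ → Matrix n μ F2), (∀ l ∈ T', l.Prime) →
    Finite (Zs F2 Γ (T ∪ T') a P b) ∧ Nat.card (Zs F2 Γ (T ∪ T') a P b) ≤
      pp ^ (C + Fintype.card μ + 2 * Fintype.card n * T'.card) := by
  have r := Pq.gd_rp h.gq
  obtain ⟨C, hC⟩ := Cardinal.lt_aleph0.1 (Pq.fin_z h.opn h.pr inferInstance r)
  refine ⟨C, fun μ κ _ T' P b pr => fin_of (X := Pq.Zs F2 Γ (T ∪ T') a (fun i => dec (P i)) b)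
    ((Pq.zs_rk h.gq).trans ((add_le_add_left (bnd_z h.opn h.idx h.pm pr r) _).trans_eq ?_))⟩
  rw [hC, rank_fun']
  push_cast
  ring

variable {π : R →+* F2}

/-- the number of generators -/
theorem bj_card [Fintype κ] {r : Type} {g : ℕ} {Q : Matrix r (Fin g) R} {u w} (h : Bj Γ T a P b N Q u w)
    (m : Q.map π = 0) (hG : Ge Γ T a) : pp ^ g ≤ Nat.card (Zs F2 Γ T (fun γ => (a γ).map π) P
      fun i γ => (b i γ).map π) * pp ^ Fintype.card ν :=
  Pq.bj_card (κ := κ) (P := fun i => dec (P i)) h m hG.gq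

/-- the lower bound for the number of points -/
theorem Pres.card_le {g r : ℕ} {Q : Matrix (Fin r) (Fin g) R} {u : GQ → Matrix n (Fin g) R}
    {w : Matrix μ (Fin g) R} (h : Pres π Γ T a P b N Q u w) (M : Type) [AddCommGroup M]
    [Module R M] [Finite M] : Finite (Zn M Γ T a P b N) ∧ Nat.card M ^ g ≤
      Nat.card (Zn M Γ T a P b N) * Nat.card M ^ (r + Fintype.card ν) :=
  Pq.Pres.card_le (P := fun i => dec (P i)) ⟨h.min, h.bij, h.crd⟩ M

variable [IsLocalRing R] [Finite R] [Fintype κ]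

/-- **the presentation**; `s` bounds the degree of the places above `pp` with a condition -/
theorem presS (c2 : Fintype.card n ≤ 2) (h : Ge Γ T a)
    (ov : ∀ i, ∃ l ∈ T, Ov l (P i)) (un : ∀ i j, ∀ g ∈ Γ, P j = g • P i → i = j) {s : ℕ}
    (hs : ∑ i, (if Ov pp (P i) then Γ.relIndex (dec (P i)) else 0) ≤ s)
    (coc : ∀ i, ∀ g ∈ Γ ⊓ dec (P i), ∀ h ∈ Γ ⊓ dec (P i), ∃ β : Matrix n ν R,
      b i (g * h) = b i g + a g * b i h + β * N)
    (lc : ∀ i, ∃ W : Subgroup GQ, IsOpen (W : Set GQ) ∧ ∀ g ∈ Γ ⊓ dec (P i),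
      ∀ w ∈ Γ ⊓ dec (P i), w ∈ W → b i (g * w) = b i g) (min : N.map π = 0)
    (rel : Rel Γ T (fun g => (a g).map π) P) :
    ∃ (g r : ℕ) (Q : Matrix (Fin r) (Fin g) R) (u : GQ → Matrix n (Fin g) R)
      (w : Matrix μ (Fin g) R), Pres π Γ T a P b N Q u w ∧
      r + Fintype.card μ + 2 * Fintype.card n = g + (Fintype.card κ + s) * Fintype.card n := by
  obtain ⟨g, r, Q, u, w, hp, le⟩ := Pq.ex_pres (P := fun i => dec (P i)) h.gq coc lc min
  have k := res_cnt (b := fun i g => (b i g).map π) c2 (h.map π) ov un hs (fun i x hx z hz => by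
      obtain ⟨β, hβ⟩ := coc i x hx z hz
      simp [hβ, Matrix.map_add, Matrix.map_mul, min])
    (fun i => (lc i).imp fun W hW => ⟨hW.1, fun x hx z hz m => by rw [hW.2 x hx z hz m]⟩) rel
  rw [show rk (Pq.Zs F2 Γ T (fun g => (a g).map π) (fun i => dec (P i))
    fun i g => (b i g).map π) = g from ?_] at k
  · have k3 : r + Fintype.card μ + 2 * Fintype.card n ≤
        g + (Fintype.card κ + s) * Fintype.card n := by
      rw [← Nat.cast_le (α := Cardinal), Nat.cast_add, Nat.cast_add, Nat.cast_add, Nat.cast_mul,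
        Nat.cast_mul, Nat.cast_ofNat]
      exact (add_le_add_left (add_le_add_left le _) _).trans k
    obtain ⟨Q', hq⟩ := hp.pad (r' := g + (Fintype.card κ + s) * Fintype.card n -
      (Fintype.card μ + 2 * Fintype.card n)) (by omega)
    exact ⟨g, _, Q', u, w, ⟨hq.min, hq.bij, hq.crd⟩, by omega⟩
  · have := Nat.finite_of_card_ne_zero (hp.crd.trans_ne (pow_ne_zero g pp_ne))
    have e := hp.crd
    rw [Module.natCard_eq_pow_finrank (K := F2), Nat.card_zmod] at e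
    rw [rk, ← finrank_eq_rank, Nat.pow_right_injective pp_prime.two_le e]

/-- **the presentation without minimality of the relations `N`** -/
theorem presnS (c2 : Fintype.card n ≤ 2) (h : Ge Γ T a)
    (ov : ∀ i, ∃ l ∈ T, Ov l (P i)) (un : ∀ i j, ∀ g ∈ Γ, P j = g • P i → i = j) {s : ℕ}
    (hs : ∑ i, (if Ov pp (P i) then Γ.relIndex (dec (P i)) else 0) ≤ s)
    (coc : ∀ i, ∀ g ∈ Γ ⊓ dec (P i), ∀ h ∈ Γ ⊓ dec (P i), ∃ β : Matrix n ν R,
      b i (g * h) = b i g + a g * b i h + β * N)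
    (lc : ∀ i, ∃ W : Subgroup GQ, IsOpen (W : Set GQ) ∧ ∀ g ∈ Γ ⊓ dec (P i),
      ∀ w ∈ Γ ⊓ dec (P i), w ∈ W → b i (g * w) = b i g)
    (rel : Rel Γ T (fun g => (a g).map π) P) :
    ∃ (g r : ℕ) (Q : Matrix (Fin r) (Fin g) R) (u : GQ → Matrix n (Fin g) R)
      (w : Matrix μ (Fin g) R), Q.map π = 0 ∧ Bj Γ T a P b N Q u w ∧
      pp ^ g ≤ Nat.card (Zs F2 Γ T (fun γ => (a γ).map π) P fun i γ => (b i γ).map π) *
        pp ^ Fintype.card ν ∧
      r + Fintype.card μ + 2 * Fintype.card n = g + (Fintype.card κ + s) * Fintype.card n := by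
  obtain ⟨g, r, Q, u, w, q, hb, e⟩ := Pq.red (π := π) (Γ := Γ) (T := T) (a := a)
    (P := fun i => dec (P i)) (s := 2 * Fintype.card n)
    (t := (Fintype.card κ + s) * Fintype.card n)
    (X := fun μ _ b N => (∀ i, ∀ g ∈ Γ ⊓ dec (P i), ∀ h ∈ Γ ⊓ dec (P i), ∃ β : Matrix n ν R,
      b i (g * h) = b i g + a g * b i h + β * N) ∧ ∀ i, ∃ W : Subgroup GQ,
      IsOpen (W : Set GQ) ∧ ∀ g ∈ Γ ⊓ dec (P i), ∀ w ∈ Γ ⊓ dec (P i), w ∈ W →
        b i (g * w) = b i g)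
    (fun _ _ _ _ b N A c => ⟨fun i g hg j hj => (c.1 i g hg j hj).imp fun β e => by
      simp only [e, Matrix.add_mul, Matrix.mul_assoc], fun i => (c.2 i).imp fun W e =>
        ⟨e.1, fun g hg j hj m => congrArg (· * A) (e.2 g hg j hj m)⟩⟩)
    (fun μ _ b N c m => by
      obtain ⟨g, r, Q, u, w, p, e⟩ := presS c2 h ov un hs c.1 c.2 m rel
      exact ⟨g, r, Q, u, w, p.min, p.bij, e⟩) _ μ b N ⟨coc, lc⟩ rfl
  exact ⟨g, r, Q, u, w, q, hb, bj_card hb q h, e⟩

omit [IsLocalRing R] [Finite R] in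
/-- at most one condition above `pp`, of degree one -/
theorem deg_one (deg : ∀ i, Ov pp (P i) → dec (P i) ≤ Γ)
    (uni : ∀ i j, Ov pp (P i) → Ov pp (P j) → i = j) :
    ∑ i, (if Ov pp (P i) then Γ.relIndex (dec (P i)) else 0) ≤ 1 := by
  by_cases c : ∃ i, Ov pp (P i)
  · obtain ⟨i, c⟩ := c
    rw [Finset.sum_eq_single i (fun j _ n => if_neg fun c' => n (uni j i c' c)) (by simp),
      if_pos c, Subgroup.relIndex_eq_one.2 (deg i c)]
  · rw [Finset.sum_eq_zero fun j _ => if_neg fun c' => c ⟨j, c'⟩]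
    exact zero_le_one

/-- **the text of `P004F.PRESN` at `pp`** -/
theorem presn {a : GQ → Matrix (Fin 2) (Fin 2) R} {b : κ → GQ → Matrix (Fin 2) μ R}
    (π : R →+* ZMod pp) (h : Ge Γ T a) (ov : ∀ i, ∃ l ∈ T, Ov l (P i))
    (un : ∀ i j, ∀ g ∈ Γ, P j = g • P i → i = j)
    (on : ∃ i, Ov pp (P i) ∧ dec (P i) ≤ Γ ∧ ∀ j, Ov pp (P j) → j = i)
    (coc : ∀ i, ∀ g ∈ Γ ⊓ dec (P i), ∀ h ∈ Γ ⊓ dec (P i), ∃ β : Matrix (Fin 2) ν R,
      b i (g * h) = b i g + a g * b i h + β * N)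
    (lc : ∀ i, ∃ W : Subgroup GQ, IsOpen (W : Set GQ) ∧ ∀ g ∈ Γ ⊓ dec (P i),
      ∀ w ∈ Γ ⊓ dec (P i), w ∈ W → b i (g * w) = b i g)
    (rel : Rel Γ T (fun g => (a g).map π) P) :
    ∃ (g r : ℕ) (Q : Matrix (Fin r) (Fin g) R) (u : GQ → Matrix (Fin 2) (Fin g) R)
      (w : Matrix μ (Fin g) R),
      (∀ (M : Type) [AddCommGroup M] [Module R M],
        Set.BijOn (fun y : Fin g → M => (fun γ => ac (u γ) y, ac w y))
          {y | ac Q y = 0 ∧ ac (N * w) y = 0} {x | x ∈ Zs M Γ T a P b ∧ ac N x.2 = 0}) ∧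
      pp ^ g ≤ Nat.card (Zs (ZMod pp) Γ T (fun γ => (a γ).map π) P fun i γ => (b i γ).map π) *
        pp ^ Fintype.card ν ∧
      r + Fintype.card μ + 2 = g + Fintype.card κ * 2 := by
  obtain ⟨i, o, d, k⟩ := on
  obtain ⟨g, r, Q, u, w, -, hb, c, e⟩ := presnS (π := π) (by simp) h ov un
    (deg_one (fun j c => k j c ▸ d) fun j l c c' => (k j c).trans (k l c').symm) coc lc rel
  rw [Fintype.card_fin] at e
  exact ⟨g, r, Q, u, w, hb, c, by omega⟩

end Vale.Agent.P014Y.Pr
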