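import Vale.Agent.P014Y.Pr.Lo1
import Vale.Agent.P014U.Pq.Core

/-!
# P014Y, block PRES: the count for a plane over an imaginary quadratic field (helper24)
-/

set_option linter.all false

noncomputable section

namespace Vale.Agent.P014Y.Pr

open NumberField Module Cardinal
open Vale.Agent.P022 Vale.Agent.P022K Vale.Agent.P022K.G2
open Vale.Agent.P022K.G2.Cn Vale.Agent.P022K.G2.Hb Vale.Agent.P022K.G2.Cx
open Vale.Agent.P027M.S (Inert)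
open Vale.Agent.P022D.W (dec inP_le_dec)
open Vale.Agent.P022.H443 (inP)
open Vale.Agent.P022E.GW (Ov Fb)
open Vale.Agent.P014U
open X4F.Pr (F2 Iu iu_mono ex_lev adapt Ou Ad add_cyc rq_le2 rq_bot dv_fp)
open Co
open Vale.Agent.P014U.Pq.Co (om_oz rq_fam)
open scoped Pointwise Classical

/-- tame inertia of any subgroup is cyclic at each level -/
theorem cycJ {l : ℕ} {P : Ideal (𝓞 Qb)} (Γ U : Subgroup GQ) [U.Normal] (hU : IsOpen (U : Set GQ))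
    (h : Ov l P) : ∃ τ ∈ Γ ⊓ inP P, ∀ g ∈ Γ ⊓ inP P, ∃ n : ℕ,
      CH.Loc.WMod l U ((τ ^ n)⁻¹ * g) := by
  obtain ⟨k, _, _, χ, hfin, h1, -⟩ := CH.Loc.chi_data U hU h
  let ι := Subgroup.inclusion (inf_le_right : Γ ⊓ inP P ≤ inP P)
  let χ' := χ.toHomUnits.comp ι
  have hfin' : Finite χ'.range := by
    have := hfin.to_subtype
    refine Finite.of_injective (β := Set.range χ)
      (fun x => ⟨(x.1 : k), by obtain ⟨g, hg⟩ := x.2; exact ⟨ι g, by rw [← hg]; rfl⟩⟩) ?_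
    intro x y h
    exact Subtype.ext (Units.ext (Subtype.ext_iff.1 h))
  have hc : IsCyclic χ'.range := isCyclic_of_injective_ringHom
    ((Units.coeHom k).comp χ'.range.subtype) (fun x y h => Subtype.ext (Units.ext h))
  obtain ⟨⟨_, τ, rfl⟩, hτ⟩ := IsCyclic.exists_monoid_generator (α := χ'.range)
  refine ⟨τ, τ.2, fun g hg => ?_⟩
  obtain ⟨n, hn⟩ := hτ ⟨χ' ⟨g, hg⟩, _, rfl⟩
  have hn' : χ' τ ^ n = χ' ⟨g, hg⟩ := congrArg Subtype.val hn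
  let g' : (Γ ⊓ inP P : Subgroup GQ) := ⟨g, hg⟩
  have : χ' ((τ ^ n)⁻¹ * g') = 1 := by rw [map_mul, map_inv, map_pow, hn', inv_mul_cancel]
  exact ⟨n, (h1 (ι ((τ ^ n)⁻¹ * g'))).1 (congrArg Units.val this)⟩

variable [Pp] {Γ U : Subgroup GQ} {T T' : Finset ℕ}
  {N : Type} [AddCommGroup N] [Module F2 N] {ρ : GQ → End F2 N} {ι : Type} {x : ι → Plc}

/-- tame inertia of a quadratic field -/
theorem tame {l : ℕ} {P : Ideal (𝓞 Qb)} (i : Γ.index = 2) (h : Ov l P) (hl : l ≠ pp) :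
    ∃ τ ∈ Γ ⊓ inP P, ka pp l τ ≠ 0 ∧ ∀ f : GQ → N, Ad (Γ ⊓ inP P) f → ∀ g ∈ Γ ⊓ inP P,
      f g = (ka pp l g / ka pp l τ) • f τ := by
  obtain ⟨t1, ⟨τ, t2, t3⟩, -⟩ := tam pp l P h hl
  obtain ⟨c1, V, hV, c2⟩ := ka_ch (p := pp) (A := inP P) (b := l) t1
    (Nat.cast_ne_zero.2 h.1.ne_zero) fun g _ => map_natCast g l
  have hτ : τ * τ ∈ Γ ⊓ inP P := ⟨Subgroup.mul_self_mem_of_index_two i τ, mul_mem (s := inP P) t2 t2⟩
  have c3 : ka pp l (τ * τ) ≠ 0 := by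
    rw [c1 τ t2 τ t2, t3, one_add_one_eq_two]
    exact two_ne
  have tor : ∀ (N : Type) [AddCommGroup N] [Module F2 N] (a : N), l • a = 0 → a = 0 :=
    fun N _ _ a e => by
      rw [← Nat.cast_smul_eq_nsmul F2] at e
      exact (smul_eq_zero.1 e).resolve_left fun c => hl ((Nat.prime_dvd_prime_iff_eq pp_prime h.1).1
        ((ZMod.natCast_eq_zero_iff _ _).1 c)).symm
  refine ⟨_, hτ, c3, fun f ⟨f1, W, hW, f2⟩ g hg => ?_⟩
  have := (hV.inf hW).nrm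
  obtain ⟨s, hs, e⟩ := cycJ Γ _ (hV.inf hW).opn h
  have k : ∀ g ∈ Γ ⊓ inP P, ∃ n : F2, f g = n • f s ∧ ka pp l g = n * ka pp l s := fun g hg => by
    obtain ⟨n, hn⟩ := e g hg
    exact ⟨n, by rw [add_cyc (tor N) f1 (V := V ⊓ W) (fun w a m => f2 w a m.2) hs hg hn,
      Nat.cast_smul_eq_nsmul], by
        rw [add_cyc (tor F2) (J := Γ ⊓ inP P) (fun a ha b hb => c1 a ha.2 b hb.2) (V := V ⊓ W)
          (fun w a m => c2 w a.2 m.1) hs hg hn, nsmul_eq_mul]⟩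
  obtain ⟨a, a1, a2⟩ := k _ hτ
  obtain ⟨n, n1, n2⟩ := k g hg
  rw [a2] at c3
  rw [n1, n2, a1, a2, smul_smul, mul_div_mul_right _ _ (right_ne_zero_of_mul c3),
    div_mul_cancel₀ _ (left_ne_zero_of_mul c3)]

/-- the values on generators of tame inertia -/
theorem ex_res (o : IsOpen (Γ : Set GQ)) (i : Γ.index = 2) (h2 : pp ∈ T) (r : Rp (Iu Γ T) Γ ρ)
    (hx : Reps Γ (Ab T') x) : ∃ s : (GQ → N) →ₗ[F2] ι → N, ∀ c ∈ C1 F2 N (Iu Γ T') Γ,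
      d1 ρ c ∈ C2 F2 N (Iu Γ T) Γ →
      (∀ j, s c j ∈ if Ou T (x j) then H0 (Dv Γ x j) ρ (om pp F2) else ⊥) ∧
        (s c = 0 → c ∈ C1 F2 N (Iu Γ T) Γ) := by
  have n := Subgroup.normal_of_index_eq_two i
  have : ∀ j, ∃ τ : GQ, ∀ l ∉ T, ∀ P, Ov l P → x j = fp P → τ ∈ Γ ⊓ inP P ∧ ka pp l τ ≠ 0 ∧
      ∀ f : GQ → N, Ad (Γ ⊓ inP P) f → ∀ g ∈ Γ ⊓ inP P, f g = (ka pp l g / ka pp l τ) • f τ :=
    fun j => by
    by_cases e : Ou T (x j)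
    · obtain ⟨l, hl, P, ov, e⟩ := e
      obtain ⟨τ, t⟩ := tame (N := N) i ov fun c => hl (c ▸ h2)
      refine ⟨τ, fun l' _ P' o' e' => ?_⟩
      obtain rfl : P = P' := Sum.inl.inj (e.symm.trans e')
      obtain rfl := GW.Pl.ov_uniq ov o'
      exact t
    · exact ⟨1, fun l hl P ov c => (e ⟨l, hl, P, ov, c⟩).elim⟩
  choose τ k using this
  refine ⟨.pi fun j => if Ou T (x j) then .proj (τ j) - .proj 1 else 0,
    fun c ⟨V, hV, v⟩ ⟨W, hW, w⟩ => ?_⟩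
  have one := one_mem Γ
  have a1 : ∀ g ∈ Γ, ∀ u ∈ Iu Γ T, c (g * u) = c g + ρ g (c u - c 1) := fun g hg u m => by
    have := (w g hg 1 one u m.1 (hW.sub m)).2
    simp only [d1_apply, one_mul, mul_one] at this
    rw [map_sub]
    linear_combination (norm := abel1) -this
  have a2 : ∀ g ∈ Γ, ∀ u ∈ Iu Γ T, c (g * u * g⁻¹) - c 1 = ρ g (c u - c 1) := fun g hg u m => by
    have m' : g * u * g⁻¹ ∈ Iu Γ T := ⟨n.conj_mem _ m.1 g, in_conj m.2 g⟩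
    have := (w 1 one g hg _ m'.1 (hW.sub m')).1
    simp only [d1_apply, one_mul, rp_in r m' m'.1, r.one, End.one_apply, inv_mul_cancel_right,
      a1 g hg u m] at this
    linear_combination (norm := abel1) this
  have ad : ∀ l ∉ T, ∀ P, Ov l P → Ad (Γ ⊓ inP P) fun g => c g - c 1 := fun l hl P ov =>
    ⟨fun g hg u hu => by
      beta_reduce
      rw [a1 g hg.1 u ⟨hu.1, l, hl, P, ov, hu.2⟩, rp_in r ⟨hg.1, l, hl, P, ov, hg.2⟩ hg.1]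
      simp only [End.one_apply]; abel,
    V, hV.mono (Set.empty_subset _), fun u hu m => by
      beta_reduce
      rw [← one_mul u, v 1 one u hu.1 m, sub_self]⟩
  refine ⟨fun j => ?_, fun s0 => ex_lev n o hV.opn v fun g hg u m => ?_⟩
  · rw [LinearMap.pi_apply]
    split_ifs with e
    · obtain ⟨l, hl, P, ov, e⟩ := e
      obtain ⟨t, k0, k1⟩ := k j l hl P ov e
      intro g hg
      have m : g * τ j * g⁻¹ ∈ Γ ⊓ inP P := ⟨n.conj_mem _ t.1 g, by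
        have := GW.Pl.inert_conj t.2 g
        rwa [show g • P = P from Sum.inl.inj (by
          have : g • x j = x j := hg.2
          rwa [e] at this)] at this⟩
      have e1 := (a2 g hg.1 _ ⟨t.1, l, hl, P, ov, t.2⟩).symm.trans (k1 _ (ad l hl P ov) _ m)
      have e2 := ka_conj (Nat.cast_ne_zero.2 ov.1.ne_zero) g
        ((tam pp l P ov fun c => hl (c ▸ h2)).1 _ t.2) (map_natCast _ l)
      rw [map_natCast, ← om_oz] at e2
      rw [e2, mul_div_cancel_right₀ _ k0] at e1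
      exact e1
    · rfl
  · obtain ⟨m1, l, hl, P, ov, m2⟩ := id m
    rw [a1 g hg u m, _root_.add_eq_left]
    by_cases e : l ∈ T'
    · obtain ⟨j, a, ha, e⟩ := hx.ex _ (mem_ab_fp.2 ⟨l, e, ov⟩)
      have e1 : x j = fp (a⁻¹ • P) := by rw [← smul_fp, e, inv_smul_smul]
      have o1 := GW.ov_smul ov a⁻¹
      obtain ⟨-, -, k1⟩ := k j l hl _ o1 e1
      have m3 : a⁻¹ * u * a⁻¹⁻¹ ∈ Γ ⊓ inP (a⁻¹ • P) := ⟨n.conj_mem _ m1 _, GW.Pl.inert_conj m2 _⟩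
      have e2 : c (τ j) - c 1 = 0 := by
        have := congrFun s0 j
        rwa [LinearMap.pi_apply, if_pos ⟨l, hl, _, o1, e1⟩] at this
      have e3 := (a2 _ (inv_mem ha) u m).symm.trans (k1 _ (ad l hl _ o1) _ m3)
      rw [e2, smul_zero] at e3
      rw [← r.inv ha (c u - c 1), e3, map_zero, map_zero]
    · rw [← one_mul u, v 1 one u m1 (hV.sub ⟨m1, l, e, P, ov, m2⟩), sub_self, map_zero]

/-- enlarging the set of primes -/
theorem enl1 [Fintype ι] (o : IsOpen (Γ : Set GQ)) (i : Γ.index = 2) (h2 : pp ∈ T)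
    (r : Rp (Iu Γ T) Γ ρ) (hx : Reps Γ (Ab T') x) :
    rq (Z2 (Iu Γ T) Γ ρ ⊓ B2 (Iu Γ T') Γ ρ) (B2 (Iu Γ T) Γ ρ) + rk (Z1 (Iu Γ T') Γ ρ) ≤
      ∑ j, rk (if Ou T (x j) then H0 (Dv Γ x j) ρ (om pp F2) else ⊥) + rk (Z1 (Iu Γ T) Γ ρ) := by
  obtain ⟨s, hs⟩ := ex_res o i h2 r hx
  have zz : ∀ c ∈ Z1 (Iu Γ T') Γ ρ, d1 ρ c ∈ C2 F2 N (Iu Γ T) Γ := fun c hc =>
    ⟨⊤, Lv.top _, fun g hg h hh w hw _ => by
      rw [d1_z1 hc (mul_mem hg hw) hh, d1_z1 hc hg (mul_mem hh hw), d1_z1 hc hg hh]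
      exact ⟨rfl, rfl⟩⟩
  let Y := C1 F2 N (Iu Γ T') Γ ⊓ (C2 F2 N (Iu Γ T) Γ).comap (d1 ρ)
  have zy : Z1 (Iu Γ T') Γ ρ ≤ Y := fun c hc => ⟨Z1.c1 hc, zz c hc⟩
  have e1 : rq (Z2 (Iu Γ T) Γ ρ ⊓ B2 (Iu Γ T') Γ ρ) (B2 (Iu Γ T) Γ ρ) ≤
      rq (Y.map s) ((Z1 (Iu Γ T') Γ ρ).map s) := by
    refine le_trans (rq_sub ?_) (rq_le2 (d1 ρ) s Y ?_)
    · rintro z ⟨hz, c, hc, h⟩
      exact ⟨d1 ρ c, ⟨c, ⟨hc, hz.2.imp fun W hW => ⟨hW.1, fun g hg j hj w hw m => by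
        rw [← h _ (mul_mem hg hw) j hj, ← h g hg _ (mul_mem hj hw), ← h g hg j hj]
        exact hW.2 g hg j hj w hw m⟩⟩, rfl⟩, b2_of_zero
          fun g hg j hj => sub_eq_zero.2 (h g hg j hj)⟩
    · rintro c hc ⟨c', h', e⟩
      have m := sub_mem hc (zy h')
      exact ⟨c - c', (hs _ m.1 m.2).2 (by rw [map_sub, e, sub_self]), fun g hg j hj => by
        rw [map_sub, Pi.sub_apply, Pi.sub_apply, d1_z1 h' hg hj, sub_zero]⟩
  have e2 := rq_add (Y.map s) ((Z1 (Iu Γ T') Γ ρ).map s)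
  rw [inf_eq_right.2 (Submodule.map_mono zy)] at e2
  rw [← rk_map s (Z1 (Iu Γ T') Γ ρ), ← add_assoc, ← rk_pi2]
  refine add_le_add (((add_le_add_left e1 _).trans_eq e2).trans (Submodule.rank_mono ?_))
    (Submodule.rank_mono fun c ⟨hc, h0⟩ => ⟨hc.1, hc.2.1, ((hs c (Z1.c1 hc) (zz c hc)).2 h0).imp
      fun W hW => ⟨hW.1, fun w hw m => ?_⟩⟩)
  · rintro _ ⟨c, hc, rfl⟩ j _
    exact (hs c hc.1 hc.2).1 j
  · rw [← one_mul w, hW.2 1 (one_mem _) w hw m, Z1.one hc r.one]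

/-- the weight of a place -/
def wt (Γ : Subgroup GQ) (y : Plc) : ℕ := if y ∈ Ab {0} then 0 else 1 + eL pp Γ y

theorem wt_ip (w : InfinitePlace Qb) : wt Γ (ip w) = 0 := by
  rw [wt, if_pos (mem_ab_ip.2 (Set.mem_singleton 0))]

theorem wt_fp {l : ℕ} {P : Ideal (𝓞 Qb)} (h : Ov l P) :
    (wt Γ (fp P) : Cardinal) = 1 + (if l = pp then Γ.relIndex (dec P) else 0 : ℕ) := by
  rw [wt, if_neg fun m => by
    obtain ⟨_, rfl, a⟩ := mem_ab_fp.1 m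
    exact Nat.not_prime_zero a.1, eL_fp h, Nat.cast_add, Nat.cast_one]

theorem ri_ip {w : InfinitePlace Qb} (cx : Γ ⊓ St (ip w) = ⊥) : Γ.relIndex (St (ip w)) = 2 := by
  obtain ⟨c, c1, -, hS, -⟩ := ex_cc w
  rw [← Subgroup.inf_relIndex_right, cx, Subgroup.relIndex_bot_left, ← Set.ncard_pair c1.symm,
    ← Nat.card_coe_set_eq]
  exact Nat.card_congr (Equiv.subtypeEquivRight hS)

theorem wt_sum [Fintype ι] (o : IsOpen (Γ : Set GQ)) (i : Γ.index = 2)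
    (cx : ∀ w, Γ ⊓ St (ip w) = ⊥) (hx : Reps Γ (Ab T) x) (h0 : 0 ∈ T) (hp : pp ∈ T) :
    ∑ j, wt Γ (x j) = Fintype.card ι + 1 := by
  have a := deg Γ _ ι x 0 o hx h0 (.inl rfl)
  have b := deg Γ _ ι x pp o hx hp (.inr pp_prime)
  have c : 2 * ∑ j, wt Γ (x j) + ∑ j, (if x j ∈ Ab {0} then Γ.relIndex (St (x j)) else 0) =
      2 * ∑ j : ι, 1 + 2 * ∑ j, (if x j ∈ Ab {pp} then Γ.relIndex (St (x j)) else 0) := by
    simp only [Finset.mul_sum, ← Finset.sum_add_distrib]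
    refine Finset.sum_congr rfl fun j _ => ?_
    rw [wt, eL]
    by_cases c : x j ∈ Ab {0}
    · obtain ⟨_, rfl, Q, o, -⟩ | ⟨-, w, e⟩ := id c
      · exact absurd o.1 Nat.not_prime_zero
      · rw [if_pos c, if_pos c, if_neg fun d => absurd (mem_ab_ip.1 (e ▸ d)).symm pp_ne, e,
          ri_ip (cx w)]
        rfl
    · rw [if_neg c, if_neg c, mul_add, add_zero]
  rw [a, b, i, ← Finset.card_eq_sum_ones, Finset.card_univ] at c
  omega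

theorem b2_bot (h : ρ 1 = 1) (z : GQ → GQ → N) : z ∈ B2 ∅ ⊥ ρ := P004F.Pr.b2_bot h z

/-- the invariants at the places without condition -/
theorem cnt_rel {κ : Type} {y : κ → Plc} [Fintype ι] {e : κ → ι} (c2 : finrank F2 N ≤ 2)
    (oΓ : IsOpen (Γ : Set GQ)) (cx : ∀ w, Γ ⊓ St (ip w) = ⊥)
    (r : Rp (Iu Γ T) Γ ρ) (ok : Ok pp T' Γ (Uk r) ρ) (tt : T ⊆ T') (hx : Reps Γ (Ab T') x)
    (xe : ∀ a, x (e a) = y a)
    (rel : Hm Γ ρ (om pp F2) = ⊥ ∨ ∃ l ∈ T, l ≠ pp ∧ ∃ Q, Ov l Q ∧ dec Q ≤ Γ ∧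
      (∀ g ∈ dec Q, ρ g = 1) ∧ ∀ i, ∀ g ∈ Γ, fp Q ≠ g • y i) :
    ∃ a : ι → Cardinal, (∀ j, j ∈ Set.range e ∨ Ou T (x j) → a j = 0) ∧
      (∀ j ∉ Set.range e, a j + wt Γ (x j) * Module.rank F2 N ≤ rk (Z1 ∅ (Dv Γ x j) ρ)) ∧
      sh (Iu Γ T) Γ (fun i => Γ ⊓ St (y i)) ρ + rk (Hm Γ ρ (om pp F2)) ≤
        ∑ j, a j + rq (Sh (Iu Γ T) Γ (Dv Γ x) ρ) (B2 (Iu Γ T) Γ ρ) := by
  have fN := ok.fin
  rw [sh]
  set Z := Sh (Iu Γ T) Γ (fun i => Γ ⊓ St (y i)) ρ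
  have u1 : ∀ z ∈ Z, ∀ l ∉ T, ∀ Q, Ov l Q → z ∈ B2 ∅ (Γ ⊓ dec Q) ρ := fun z hz l hl Q o =>
    ur oΓ r hz.1 o fun i m hi => ⟨m, l, hl, Q, o, hi⟩
  have a0 : ∀ j, j ∈ Set.range e ∨ Ou T (x j) → rq Z (B2 ∅ (Dv Γ x j) ρ) = 0 := fun j h =>
    rq_eq_zero.2 fun z hz => by
      obtain ⟨b, rfl⟩ | ⟨l, hl, Q, o, c⟩ := h
      · rw [Dv, xe]
        exact (Submodule.mem_iInf _).1 hz.2 b
      · exact dv_fp c ▸ u1 z hz l hl Q o
  have a1 : ∀ j ∉ Set.range e, rq Z (B2 ∅ (Dv Γ x j) ρ) + wt Γ (x j) * Module.rank F2 N ≤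
      rk (Z1 ∅ (Dv Γ x j) ρ) := fun j hj => by
    obtain ⟨l, -, Q, o, c⟩ | ⟨-, w, c⟩ := Rps.self hx j
    · rw [dv_fp c, c, wt_fp o]
      exact le_trans (add_le_add_left (rq_mono (Z := Z) fun z hz =>
        Z2.mono hz.1 (Set.empty_subset _) (inf_le_left (b := dec Q))) _)
        (eu pp_ne_two c2 oΓ r ok o)
    · rw [Dv, c, cx, wt_ip, rq_eq_zero.2 fun z _ => b2_bot r.one z, Nat.cast_zero, zero_mul,
        add_zero]
      exact bot_le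
  have bc : ∀ j, B2 (Iu Γ T) Γ ρ ≤ B2 ∅ (Dv Γ x j) ρ := fun j z hz =>
    B2.mono hz (Set.empty_subset _) (Dv_le Γ x j)
  by_cases c : Hm Γ ρ (om pp F2) = ⊥
  · refine ⟨_, a0, a1, ?_⟩
    rw [c, rk, rank_bot, add_zero]
    refine (rq_fam Z _ _ bc Finset.univ).trans (add_le_add_right (rq_mono ?_) _)
    exact fun z hz => ⟨hz.1.1, (Submodule.mem_iInf _).2 fun j => (Submodule.mem_iInf _).1
      ((Submodule.mem_iInf _).1 hz.2 j) (Finset.mem_univ j)⟩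
  obtain ⟨l, hl, l2, Q₀, o, qΓ, qu, nq⟩ := rel.resolve_left c
  obtain ⟨φ₀, p1, p2⟩ := Submodule.exists_mem_ne_zero_of_ne_bot c
  obtain ⟨n, p2⟩ := DFunLike.ne_iff.1 p2
  replace qu : dec Q₀ ≤ Uk r := fun g m => ⟨qΓ m, qu g m, (om_eq_one F2).1 (by
    have := p1 g (qΓ m) n
    rw [qu g m] at this
    exact (mul_left_eq_self₀.1 this.symm).resolve_right p2)⟩
  obtain ⟨j, b, hb, c⟩ := hx.ex _ (mem_ab_fp.2 ⟨l, tt hl, o⟩)
  have c1 : x j = fp (b⁻¹ • Q₀) := by rw [← smul_fp, c, inv_smul_smul]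
  have o1 := GW.ov_smul o b⁻¹
  have q1 : dec (b⁻¹ • Q₀) ≤ Uk r := fun u hu => by
    rw [← st_fp, ← c1] at hu
    have := ((st_cj (Γ := ⊤) (x j) (g := b) trivial u).1 ⟨trivial, hu⟩).2
    rw [← c] at this
    simpa [mul_assoc] using (uk_nz r le_rfl).conj' hb (qu ((st_fp Q₀).le this))
  have rj : ¬ (j ∈ Set.range e ∨ Ou T (x j)) := by
    rintro (⟨u, rfl⟩ | ⟨l', hl', Q, o', c'⟩)
    · exact nq u b hb (xe u ▸ c)
    · obtain rfl : b⁻¹ • Q₀ = Q := Sum.inl.inj (c1.symm.trans c')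
      exact hl' (GW.Pl.ov_uniq o1 o' ▸ hl)
  generalize b⁻¹ • Q₀ = Q at c1 o1 q1
  obtain ⟨f, -, f2, f3⟩ := inv_ex pp_ne_two fN oΓ r o1 (by
    rw [Subgroup.relIndex_eq_one.2 (inf_le_right.trans q1)]; exact pp_prime.not_dvd_one)
  refine ⟨Function.update (fun j => rq Z (B2 ∅ (Dv Γ x j) ρ)) j (Module.rank F2 N),
    fun i hi => ?_, fun i hi => ?_, ?_⟩
  · rw [Function.update_of_ne fun w : i = j => rj (w ▸ hi), a0 i hi]
  · obtain rfl | w := eq_or_ne i j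
    · rw [Function.update_self, dv_fp c1, c1, wt_fp o1]
      convert ll pp_ne_two ok o1
      · rw [show Hm (Γ ⊓ dec Q) ρ (om pp F2) = ⊤ from eq_top_iff.2 fun φ _ g hg n => by
          rw [(q1 hg.2).2.1, (om_eq_one F2).2 (q1 hg.2).2.2, one_mul]; rfl, rk, rank_top,
          ← finrank_eq_rank F2 (Dual F2 N), Subspace.dual_finrank_eq, finrank_eq_rank]
    · rw [Function.update_of_ne w]
      exact a1 i hi
  rw [Finset.sum_update_of_mem (Finset.mem_univ j)]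
  refine (add_le_add_left (rq_fam Z _ _ bc (Finset.univ \ {j})) _).trans ?_
  set Z' := Z ⊓ ⨅ i ∈ Finset.univ \ {j}, B2 ∅ (Dv Γ x i) ρ
  have z1 : ∀ z ∈ Z', ∀ i ≠ j, z ∈ B2 ∅ (Dv Γ x i) ρ := fun z hz i w =>
    (Submodule.mem_iInf _).1 ((Submodule.mem_iInf _).1 hz.2 i) (by simpa using w)
  have k1 := rq_split LinearMap.id Z' (B' := B2 ∅ (Dv Γ x j) ρ) (bc j)
  rw [Submodule.map_id, Submodule.comap_id] at k1
  have k2 : rq Z' (B2 ∅ (Dv Γ x j) ρ) ≤ rq (Hm Γ ρ (om pp F2)).dualCoannihilator ⊥ := by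
    refine rq_le f (fun z hz => (Submodule.mem_dualCoannihilator _).2 fun φ hφ => f3 z φ ?_)
      fun z hz h => dv_fp c1 ▸ f2 z (Z2.mono hz.1.1 (Set.empty_subset _) inf_le_left) h
    refine B2.mono (one1 pp_ne_two G2.one2 oΓ o1 l2 (fun g m => ⟨(q1 m).1, (q1 m).2.2⟩)
      (Z2.amap (Z2.mono hz.1.1 (Set.empty_subset _) le_rfl) φ.toAddMonoidHom hφ) fun v hv ny =>
        B2.amap (ρ := ρ) ?_ φ.toAddMonoidHom fun g m => hφ g m.1) subset_rfl inf_le_right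
    by_cases yT : v ∈ Ab T'
    · obtain ⟨i, u, hu, rfl⟩ := hx.ex v yT
      exact loc2 r hz.1.1 hu (z1 z hz i fun w => ny u hu (by rw [w, c1]))
    · obtain ⟨l', -, Q', o', rfl⟩ | ⟨-, w, rfl⟩ := hv
      · rw [st_fp]
        exact u1 z hz.1 l' (fun a => yT (mem_ab_fp.2 ⟨l', tt a, o'⟩)) Q' o'
      · exact absurd (mem_ab_ip.2 ok.lg.h0) yT
  have k3 : rq (Hm Γ ρ (om pp F2)).dualCoannihilator ⊥ + rk (Hm Γ ρ (om pp F2)) =
      Module.rank F2 N := by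
    rw [rq_bot, rk, rk, ← finrank_eq_rank, ← finrank_eq_rank, ← finrank_eq_rank, ← Nat.cast_add,
      add_comm, Subspace.finrank_add_finrank_dualCoannihilator_eq]
  have k4 : rq (Z' ⊓ B2 ∅ (Dv Γ x j) ρ) (B2 (Iu Γ T) Γ ρ) ≤ _ := rq_mono
    (Z' := Sh (Iu Γ T) Γ (Dv Γ x) ρ) fun z hz => ⟨hz.1.1.1, (Submodule.mem_iInf _).2 fun i =>
      (eq_or_ne i j).elim (fun w => w ▸ hz.2) (z1 z hz.1 i)⟩
  rw [← k1, ← k3]
  exact (add_le_add_left (add_le_add_right (add_le_add k2 k4) _) _).trans_eq (by ring)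

/-- **the count** -/
theorem core {κ : Type} [Fintype κ] {y : κ → Plc} (o : IsOpen (Γ : Set GQ)) (i : Γ.index = 2)
    (cx : ∀ w, Γ ⊓ St (ip w) = ⊥) (h2 : pp ∈ T) (pr : ∀ l ∈ T, l.Prime)
    (f : Module.Finite F2 N) (c2 : finrank F2 N ≤ 2) (r : Rp (Iu Γ T) Γ ρ)
    (ov : ∀ i, y i ∈ Ab T) (un : ∀ i j, ∀ g ∈ Γ, y j = g • y i → i = j)
    (rel : Hm Γ ρ (om pp F2) = ⊥ ∨ ∃ l ∈ T, l ≠ pp ∧ ∃ Q, Ov l Q ∧ dec Q ≤ Γ ∧
      (∀ g ∈ dec Q, ρ g = 1) ∧ ∀ i, ∀ g ∈ Γ, fp Q ≠ g • y i) :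
    sh (Iu Γ T) Γ (fun i => Γ ⊓ St (y i)) ρ + ∑ i, rk (Z1 ∅ (Γ ⊓ St (y i)) ρ) +
      2 * Module.rank F2 N ≤ rk (Z1 (Iu Γ T) Γ ρ) + (∑ i, wt Γ (y i) : ℕ) * Module.rank F2 N := by
  obtain ⟨T', tt, ok⟩ := ex_ok c2 o r T (fun l hl => .inr (pr l hl)) fun g m h => ⟨m, h⟩
  have L := ok.lg
  have eI : Iu Γ T' = In T' := Set.ext fun g => ⟨fun h => h.2, fun h => ⟨(le_in L.lv h).1, h⟩⟩
  have sI : In T' ⊆ Iu Γ T := eI ▸ iu_mono tt
  obtain ⟨ι, _, x₀, hx₀⟩ := plc Γ T' o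
  obtain ⟨x, e, hx, ie, xe⟩ := adapt hx₀ y (fun a => Plc.ab_mono (Finset.coe_subset.2 tt) (ov a)) un
  obtain ⟨fz, -, g⟩ := G2.chi2 F2 N Γ _ T' ι x ρ ok hx
  replace g := (ar_cone (cone GQ _ N _ Γ ι _ ρ ok.rp (Dv_le Γ x)) fz (fin_cr f _) (fin_tn f fz)).1 g
  have en := enl1 o i h2 r hx
  rw [eI] at en
  have k2 := (rq_split LinearMap.id (Sh (Iu Γ T) Γ (Dv Γ x) ρ) (B := B2 (Iu Γ T) Γ ρ)
    (B' := B2 (In T') Γ ρ) fun z hz => B2.mono hz sI le_rfl).ge.trans (add_le_add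
      (rq_mono (Z' := Sh (In T') Γ (Dv Γ x) ρ) fun _ ⟨z, hz, c⟩ =>
        c ▸ ⟨Z2.mono hz.1 sI le_rfl, hz.2⟩)
      (rq_mono (Z' := Z2 (Iu Γ T) Γ ρ ⊓ B2 (In T') Γ ρ) fun z hz => ⟨hz.1.1, hz.2⟩))
  obtain ⟨a, a0, a1, k3⟩ := cnt_rel c2 o cx r ok tt hx xe rel
  have k4 : ∑ j, a j + ∑ j, rk (if Ou T (x j) then H0 (Dv Γ x j) ρ (om pp F2) else ⊥) +
      (Fintype.card ι + 1 : ℕ) * Module.rank F2 N + ∑ i, rk (Z1 ∅ (Γ ⊓ St (y i)) ρ) ≤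
      ∑ j, rk (Z1 ∅ (Dv Γ x j) ρ) + (∑ i, wt Γ (y i) : ℕ) * Module.rank F2 N := by
    have s : ∀ F : Plc → Cardinal, ∑ i, F (y i) =
        ∑ j, if j ∈ Finset.univ.image e then F (x j) else 0 := fun F => by
      rw [Finset.sum_ite_mem, Finset.univ_inter, Finset.sum_image ie.injOn]
      simp only [xe]
    rw [← wt_sum o i cx hx L.h0 L.hp, Nat.cast_sum, Nat.cast_sum, Finset.sum_mul, Finset.sum_mul,
      s fun v => rk (Z1 ∅ (Γ ⊓ St v) ρ), s fun v => wt Γ v * Module.rank F2 N]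
    simp only [← Finset.sum_add_distrib]
    refine Finset.sum_le_sum fun j _ => ?_
    by_cases m : j ∈ Set.range e
    · obtain ⟨i, rfl⟩ := id m
      rw [a0 _ (.inl m), if_neg fun ⟨l, hl, Q, o, c⟩ => by
          obtain ⟨l', m, o'⟩ := mem_ab_fp.1 ((xe i).symm.trans c ▸ ov i)
          obtain rfl := GW.Pl.ov_uniq o o'
          exact hl m,
        if_pos (by simp), if_pos (by simp), rk, rank_bot, zero_add, zero_add, add_comm]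
      rfl
    rw [if_neg (c := j ∈ _) (by simpa using m), if_neg (c := j ∈ _) (by simpa using m), add_zero,
      add_zero]
    split_ifs with c
    · rw [a0 j (.inr c), zero_add]
      obtain ⟨l, hl, Q, oQ, c⟩ := c
      rw [dv_fp c, c, wt_fp oQ]
      refine (add_le_add_left (h0_le f o r oQ (fun c => hl (c ▸ h2))
        fun i m hi => ⟨m, l, hl, Q, oQ, hi⟩) _).trans ?_
      convert ll pp_ne_two ok oQ
    · rw [rk, rank_bot, add_zero]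
      exact a1 j m
  rw [Nat.cast_add, Nat.cast_one, add_mul, one_mul] at k4
  refine can (add_lt_aleph0 (add_lt_aleph0 (fin_hm (A := Γ) (ρ := ρ) (ω := om pp F2) f) fz)
    (fin_cr f (Fintype.card ι))) ?_
  replace k3 := k3.trans (add_le_add_right k2 _)
  rw [sh] at g
  generalize sh (Iu Γ T) Γ (fun i => Γ ⊓ St (y i)) ρ = u, rk (Hm Γ ρ (om pp F2)) = h,
    ∑ j, rk (if Ou T (x j) then H0 (Dv Γ x j) ρ (om pp F2) else ⊥) = b, ∑ j, a j = a,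
    rq (Z2 (Iu Γ T) Γ ρ ⊓ B2 (In T') Γ ρ) (B2 (Iu Γ T) Γ ρ) = q, rk (Z1 (In T') Γ ρ) = z',
    rk (Z1 (Iu Γ T) Γ ρ) = z, ∑ a, rk (Z1 ∅ (Γ ⊓ St (y a)) ρ) = t,
    rq (Sh (In T') Γ (Dv Γ x) ρ) (B2 (In T') Γ ρ) = s, ∑ j, rk (Z1 ∅ (Dv Γ x j) ρ) = v,
    ((∑ i, wt Γ (y i) : ℕ) : Cardinal) * Module.rank F2 N = m,
    (Fintype.card ι : Cardinal) * Module.rank F2 N = c at *
  generalize Module.rank F2 N = n at *
  calc _ = u + h + (z' + c + t + n + n) := by ring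
    _ ≤ _ := add_le_add_left k3 _
    _ = q + z' + (a + s + c + t + n + n) := by ring
    _ ≤ _ := add_le_add_left en _
    _ = a + b + (c + n) + t + (s + z + n) := by ring
    _ ≤ _ := add_le_add_left k4 _
    _ = s + v + n + (z + m) := by ring
    _ ≤ _ := add_le_add_left g _
    _ = _ := by ring

theorem bnd_z (o : IsOpen (Γ : Set GQ)) (i : Γ.index = 2) (h2 : pp ∈ T)
    (pr : ∀ l ∈ T', l.Prime) (r : Rp (Iu Γ T) Γ ρ) : rk (Z1 (Iu Γ (T ∪ T' : Finset ℕ)) Γ ρ) ≤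
      (2 * T'.card : ℕ) * Module.rank F2 N + rk (Z1 (Iu Γ T) Γ ρ) := by
  obtain ⟨ι, _, x, hx⟩ := plc Γ (T ∪ T') o
  refine ((self_le_add_left _ _).trans (enl1 o i h2 r hx)).trans (add_le_add_left ?_ _)
  have u : ∑ j, (if Ou T (x j) then 1 else 0) ≤ 2 * T'.card := by
    rw [mul_comm, ← smul_eq_mul, ← Finset.sum_const, ← i, ← Finset.sum_congr rfl fun l hl =>
      deg Γ _ ι x l o hx (Finset.mem_coe.2 (Finset.mem_union_right T hl)) (.inr (pr l hl)),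
      Finset.sum_comm]
    refine Finset.sum_le_sum fun j _ => ?_
    split_ifs with c
    · obtain ⟨l, hl, Q, a, c⟩ := c
      obtain ⟨l', m, a'⟩ := mem_ab_fp.1 (c ▸ Rps.self hx j)
      obtain rfl := GW.Pl.ov_uniq a a'
      refine le_trans ?_ (Finset.single_le_sum (fun _ _ => Nat.zero_le _)
        ((Finset.mem_union.1 m).resolve_left hl))
      rw [if_pos (c ▸ mem_ab_fp.2 ⟨l, rfl, a⟩)]
      exact Nat.pos_of_ne_zero (le_of_open o _).relIndex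
    · exact Nat.zero_le _
  refine le_trans ?_ (mul_le_mul_left (Nat.cast_le.2 u) _)
  rw [Nat.cast_sum, Finset.sum_mul]
  refine Finset.sum_le_sum fun j _ => ?_
  split_ifs
  · rw [Nat.cast_one, one_mul]
    exact Submodule.rank_le _
  · simp

end Vale.Agent.P014Y.Pr
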