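import Vale.Agent.P014U.Pq.Lo0

/-!
# P014Y, block PRES: planes over the prime field for an open subgroup (helper24)
-/

set_option linter.all false

noncomputable section

namespace Vale.Agent.P014Y.Pr.Co

open Module Cardinal
open Vale.Agent.P022 Vale.Agent.P022K.G2 Vale.Agent.P022K.G2.Cn Vale.Agent.P022K.G2.Cx
open Vale.Agent.P022K.G2.Hb

variable {p : ℕ} [Fact p.Prime] {N : Type} [AddCommGroup N] [Module (ZMod p) N] {I : Set GQ}
  {ρ : GQ → End (ZMod p) N} {Γ A : Subgroup GQ}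

/-- the kernel, within the group of the roots of unity -/
def Uk (r : Rp I Γ ρ) : Subgroup GQ where
  carrier := {g | g ∈ Γ ∧ ρ g = 1 ∧ g ∈ Gz p}
  mul_mem' a b := ⟨mul_mem a.1 b.1, by rw [r.mul _ a.1 _ b.1, a.2.1, b.2.1, mul_one],
    mul_mem a.2.2 b.2.2⟩
  one_mem' := ⟨one_mem _, r.one, one_mem _⟩
  inv_mem' {a} h := ⟨inv_mem h.1, by
    rw [← r.one, ← mul_inv_cancel a, r.mul _ h.1 _ (inv_mem h.1), h.2.1, one_mul], inv_mem h.2.2⟩

theorem cjm {g u : GQ} (hg : g ∈ Γ) (hu : u ∈ Γ) : g * u * g⁻¹ ∈ Γ :=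
  mul_mem (mul_mem hg hu) (inv_mem hg)

theorem cja (r : Rp I Γ ρ) {g u : GQ} (hg : g ∈ Γ) (hu : u ∈ Γ) (n : N) :
    ρ (g * u * g⁻¹) n = ρ g (ρ u (ρ g⁻¹ n)) := by
  rw [r.mul' (mul_mem hg hu) (inv_mem hg), r.mul' hg hu]

theorem uk_le (r : Rp I Γ ρ) : Uk r ≤ Γ := fun _ m => m.1

theorem uk_gz (r : Rp I Γ ρ) : Uk r ≤ Gz p := fun _ m => m.2.2

theorem uk_nz (r : Rp I Γ ρ) (le : A ≤ Γ) : Nz A (Uk r) := fun g hg u hu =>
  ⟨cjm (le hg) hu.1, LinearMap.ext fun n => by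
    rw [cja r (le hg) hu.1, hu.2.1, End.one_apply, r.inv (le hg)]; rfl,
    Gz_normal.conj_mem u hu.2.2 g⟩

theorem uk_open (o : IsOpen (Γ : Set GQ)) (r : Rp I Γ ρ) : IsOpen (Uk r : Set GQ) := by
  obtain ⟨W, hW, w⟩ := r.lv
  exact Subgroup.isOpen_mono (H₁ := Γ ⊓ (W ⊓ Gz p)) (fun x m => ⟨m.1, w x m.1 m.2.1, m.2.2⟩)
    (o.inter (hW.opn.inter Gz_open))

theorem pw (r : Rp I Γ ρ) {s : GQ} (hs : s ∈ Γ) (n : ℕ) : ρ (s ^ n) = ρ s ^ n := by
  induction n with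
  | zero => simpa using r.one
  | succ n ih => rw [pow_succ, r.mul _ (pow_mem hs n) _ hs, ih, pow_succ]

/-- `s` is a transvection in the basis `e`, `f` with coordinates `μ`, `l` -/
structure Up (Γ : Subgroup GQ) (ρ : GQ → End (ZMod p) N) (s : GQ) (e f : N)
    (μ l : N →ₗ[ZMod p] ZMod p) : Prop where
  sg : s ∈ Γ
  gz : s ∈ Gz p
  act : ∀ n, ρ s n = n + l n • e
  dec : ∀ n, μ n • e + l n • f = n
  me : μ e = 1
  le : l e = 0
  lf : l f = 1

/-- order prime to `p`, or a transvection -/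
theorem dich [Module.Finite (ZMod p) N] (c2 : finrank (ZMod p) N ≤ 2) (o : IsOpen (Γ : Set GQ))
    (r : Rp I Γ ρ) (le : A ≤ Γ) :
    ¬ p ∣ (Uk r).relIndex A ∨ ∃ s ∈ A, ∃ e f μ l, Up Γ ρ s e f μ l := by
  refine or_iff_not_imp_left.2 fun h => ?_
  haveI : ((Uk r).subgroupOf A).Normal := ⟨fun u hu g => uk_nz r le g g.2 u hu⟩
  haveI : Finite (A ⧸ (Uk r).subgroupOf A) :=
    Nat.finite_of_card_ne_zero (le_of_open (uk_open o r) A).relIndex
  obtain ⟨x, hx⟩ := exists_prime_orderOf_dvd_card' p (not_not.1 h)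
  obtain ⟨s, rfl⟩ := QuotientGroup.mk_surjective x
  have h1 : (s : GQ) ^ p ∈ Uk r := (QuotientGroup.eq_one_iff (N := (Uk r).subgroupOf A) (s ^ p)).1
    (by rw [QuotientGroup.mk_pow]; exact orderOf_dvd_iff_pow_eq_one.1 hx.dvd)
  have hz : (s : GQ) ∈ Gz p := by
    have := mem_Gz.1 h1.2.2
    rw [oz, map_pow, Units.val_pow_eq_pow_val, ZMod.pow_card] at this
    exact mem_Gz.2 this
  have h2 : ρ s ≠ 1 := fun e => (Fact.out : p.Prime).one_lt.ne' (hx.symm.trans (orderOf_eq_one_iff.2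
    ((QuotientGroup.eq_one_iff s).2 (show (s : GQ) ∈ Uk r from ⟨le s.2, e, hz⟩))))
  haveI := nontrivial_of_ne _ _ h2
  haveI : CharP (End (ZMod p) N) p := charP_of_injective_algebraMap (algebraMap (ZMod p) _).injective p
  obtain ⟨ν, hν⟩ : ∃ ν, ν = ρ s - 1 := ⟨_, rfl⟩
  have h3 : ∃ m, ν ^ m = 0 := ⟨p, by
    rw [hν, sub_pow_char_of_commute _ (Commute.one_right _), ← pw r (le s.2), h1.2.1, one_pow,
      sub_self]⟩
  classical
  obtain ⟨m, hm⟩ : ∃ m, Nat.find h3 = m + 2 := by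
    have a : Nat.find h3 ≠ 0 := fun e => one_ne_zero ((pow_zero ν).symm.trans (e ▸ Nat.find_spec h3))
    have b : Nat.find h3 ≠ 1 := fun e =>
      h2 (sub_eq_zero.1 (hν ▸ (pow_one ν).symm.trans (e ▸ Nat.find_spec h3)))
    exact ⟨Nat.find h3 - 2, by omega⟩
  obtain ⟨v, hv⟩ : ∃ v, (ν ^ (m + 1)) v ≠ 0 := by
    by_contra! c
    exact Nat.find_min h3 (m := m + 1) (by omega) (LinearMap.ext c)
  rw [pow_succ', End.mul_apply] at hv
  have h4 : ν (ν ((ν ^ m) v)) = 0 := by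
    rw [← End.mul_apply, ← End.mul_apply, ← pow_two, ← pow_add, add_comm, ← hm, Nat.find_spec h3]
    rfl
  generalize (ν ^ m) v = f at hv h4
  have li : LinearIndependent (ZMod p) ![ν f, f] := LinearIndependent.pair_iff.2 fun a b e => by
    have e1 := congrArg ν e
    rw [map_add, map_smul, map_smul, h4, smul_zero, zero_add, map_zero] at e1
    have b0 := (smul_eq_zero.1 e1).resolve_right hv
    rw [b0, zero_smul, add_zero] at e
    exact ⟨(smul_eq_zero.1 e).resolve_right hv, b0⟩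
  let b := basisOfLinearIndependentOfCardEqFinrank li
    (le_antisymm li.fintype_card_le_finrank (by simpa using c2))
  have b0 : b 0 = ν f := by simp [b]
  have b1 : b 1 = f := by simp [b]
  have d : ∀ n, b.coord 0 n • ν f + b.coord 1 n • f = n := fun n => by
    have := b.sum_repr n
    rwa [Fin.sum_univ_two, b0, b1] at this
  refine ⟨s, s.2, ν f, f, b.coord 0, b.coord 1, le s.2, hz, fun n => ?_, d, by simp [← b0],
    by simp [← b0], by simp [← b1]⟩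
  have := congrArg ν (d n)
  rw [map_add, map_smul, map_smul, h4, smul_zero, zero_add] at this
  rw [this, hν, LinearMap.sub_apply, End.one_apply, add_sub_cancel]

variable {s : GQ} {e f : N} {μ l : N →ₗ[ZMod p] ZMod p}

theorem Up.ker (u : Up Γ ρ s e f μ l) {n : N} (h : l n = 0) : μ n • e = n := by
  simpa [h] using u.dec n

theorem Up.pw (u : Up Γ ρ s e f μ l) (r : Rp I Γ ρ) (i : ℕ) (n : N) :
    ρ (s ^ i) n = n + ((i : ZMod p) * l n) • e := by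
  induction i with
  | zero => simp [r.one]
  | succ i ih =>
    rw [pow_succ', r.mul' u.sg (pow_mem u.sg i), ih, u.act, map_add, map_smul, u.le]
    push_cast
    module

/-- the stabiliser of the line -/
def Up.B (u : Up Γ ρ s e f μ l) (r : Rp I Γ ρ) : Subgroup GQ where
  carrier := {g | g ∈ Γ ∧ l (ρ g e) = 0}
  mul_mem' {a b} ha hb := ⟨mul_mem ha.1 hb.1, by
    rw [r.mul' ha.1 hb.1, ← u.ker hb.2, map_smul, map_smul, ha.2, smul_zero]⟩
  one_mem' := ⟨one_mem _, by rw [r.one]; exact u.le⟩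
  inv_mem' {a} ha := ⟨inv_mem ha.1, by
    have := congrArg (fun x => l (ρ a⁻¹ x)) (u.ker ha.2)
    simp only [r.inv' ha.1, map_smul, u.le, smul_eq_mul] at this
    refine (mul_eq_zero.1 this).resolve_left fun c => one_ne_zero (α := ZMod p) ?_
    rw [← u.me, ← r.inv' ha.1 e, ← u.ker ha.2, c, zero_smul, map_zero, map_zero]⟩

/-- the unipotent elements which fix the roots of unity -/
def Up.H (u : Up Γ ρ s e f μ l) (r : Rp I Γ ρ) : Subgroup GQ where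
  carrier := {g | g ∈ Γ ∧ ρ g e = e ∧ (∀ n, l (ρ g n) = l n) ∧ g ∈ Gz p}
  mul_mem' ha hb := ⟨mul_mem ha.1 hb.1, by rw [r.mul' ha.1 hb.1, hb.2.1, ha.2.1],
    fun n => by rw [r.mul' ha.1 hb.1, ha.2.2.1, hb.2.2.1], mul_mem ha.2.2.2 hb.2.2.2⟩
  one_mem' := ⟨one_mem _, by rw [r.one]; rfl, fun n => by rw [r.one]; rfl, one_mem _⟩
  inv_mem' {a} ha := ⟨inv_mem ha.1, by conv_lhs => rw [← ha.2.1, r.inv' ha.1],
    fun n => by rw [← ha.2.2.1, r.inv ha.1], inv_mem ha.2.2.2⟩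

variable (u : Up Γ ρ s e f μ l) (r : Rp I Γ ρ)

theorem Up.l_act {g : GQ} (hg : g ∈ u.B r) (n : N) : l (ρ g n) = l (ρ g f) * l n := by
  conv_lhs => rw [← u.dec n]
  rw [map_add, map_add, map_smul, map_smul, map_smul, map_smul, hg.2,
    smul_zero, zero_add, smul_eq_mul, mul_comm]

theorem Up.ses : Ses (u.B r) (ch fun g => μ (ρ g e)) ρ (ch fun g => l (ρ g f))
    (LinearMap.toSpanSingleton (ZMod p) N e) l :=
  ⟨fun a b c => by simpa [u.me] using congrArg μ c, fun a => ⟨a • f, by simp [u.lf]⟩,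
    fun n => ⟨fun h => ⟨_, u.ker h⟩, by rintro ⟨a, rfl⟩; simp [u.le]⟩,
    fun g hg a => by
      simp only [LinearMap.toSpanSingleton_apply, ch_apply, map_smul]
      rw [mul_comm, mul_smul, u.ker hg.2], fun g hg n => u.l_act r hg n⟩

theorem Up.bg : u.B r ≤ Γ := fun _ m => m.1

theorem Up.hz : u.H r ≤ Gz p := fun _ m => m.2.2.2

theorem Up.hb : u.H r ≤ u.B r := fun g hg => ⟨hg.1, by rw [hg.2.1, u.le]⟩

theorem Up.uh : Uk r ≤ u.H r := fun g hg =>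
  ⟨hg.1, by rw [hg.2.1]; rfl, fun n => by rw [hg.2.1]; rfl, hg.2.2⟩

theorem Up.sh : s ∈ u.H r := ⟨u.sg, by rw [u.act, u.le, zero_smul, add_zero], fun n => by
  rw [u.act, map_add, map_smul, u.le, smul_zero, add_zero], u.gz⟩

theorem Up.t1 : ∀ h ∈ u.H r, μ (ρ h e) = 1 := fun h m => by rw [m.2.1, u.me]

theorem Up.t2 : ∀ h ∈ u.H r, l (ρ h f) = 1 := fun h m => by rw [m.2.2.1, u.lf]

theorem Up.ib (lA : A ≤ Γ) (hs : s ∈ A) : ¬ p ∣ (u.B r).relIndex A := by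
  by_cases le : A ≤ u.B r
  · rw [Subgroup.relIndex_eq_one.2 le]
    exact (Fact.out : p.Prime).not_dvd_one
  obtain ⟨g, hg, n⟩ := SetLike.not_le_iff_exists.1 le
  replace n : l (ρ g e) ≠ 0 := fun c => n ⟨lA hg, c⟩
  have m : ∀ x ∈ A, ∀ y ∈ A, x⁻¹ * y ∈ u.B r ↔ ∃ a : ZMod p, ρ y e = a • ρ x e := fun x hx y hy =>
    ⟨fun h => ⟨_, by
      rw [← map_smul, u.ker h.2, r.mul' (inv_mem (lA hx)) (lA hy), r.inv (lA hx)]⟩,
    fun ⟨a, h⟩ => ⟨lA (mul_mem (inv_mem hx) hy), by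
      rw [r.mul' (inv_mem (lA hx)) (lA hy), h, map_smul, r.inv' (lA hx), map_smul, u.le,
        smul_zero]⟩⟩
  let F : Option (ZMod p) → GQ := fun o => o.elim 1 fun i => s ^ i.val * g
  have FA : ∀ o, F o ∈ A := fun o => by
    cases o
    exacts [one_mem _, mul_mem (pow_mem hs _) hg]
  have F0 : ρ (F none) e = e := by simp [F, r.one]
  have F1 : ∀ i, ρ (F (some i)) e = ρ g e + (i * l (ρ g e)) • e := fun i => by
    simp [F, r.mul' (pow_mem u.sg _) (lA hg), u.pw r]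
  have un : ∀ i ∈ (Finset.univ : Finset (Option (ZMod p))), ∀ j ∈ Finset.univ,
      (F i)⁻¹ * F j ∈ u.B r → i = j := by
    rintro (_ | i) - (_ | j) - h <;> obtain ⟨a, h⟩ := (m _ (FA _) _ (FA _)).1 h
    · rfl
    · rw [F0, F1] at h
      exact absurd (by simpa [u.le] using congrArg l h) n
    · rw [F0, F1] at h
      have a0 : a = 0 := by simpa [u.le, n] using congrArg l h
      exact absurd (by simpa [a0, u.me] using congrArg μ h) (one_ne_zero (α := ZMod p))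
    · rw [F1, F1] at h
      have a1 : a = 1 := by simpa [u.le, n] using (congrArg l h).symm
      have := congrArg μ h
      simp only [a1, one_smul, map_add, map_smul, u.me, smul_eq_mul, mul_one, add_right_inj] at this
      rw [mul_right_cancel₀ n this]
  have t := tv_image (Γ := A) Finset.univ F (fun o _ => FA o) (fun h hh => by
      by_cases c : l (ρ h e) = 0
      · exact ⟨none, Finset.mem_univ _, (m _ (FA _) _ hh).2 ⟨_, by rw [F0, u.ker c]⟩⟩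
      refine ⟨some ((μ (ρ h e) / l (ρ h e)) - μ (ρ g e) / l (ρ g e)), Finset.mem_univ _,
        (m _ (FA _) _ hh).2 ⟨l (ρ h e) / l (ρ g e), ?_⟩⟩
      rw [F1]
      have h1 := u.dec (ρ h e)
      have h2 := u.dec (ρ g e)
      generalize μ (ρ h e) = a, l (ρ h e) = b, μ (ρ g e) = c, l (ρ g e) = d at *
      rw [← h1, ← h2]
      match_scalars <;> field_simp <;> ring) un
  rw [← t.card, @Finset.card_image_of_injOn _ _ _ _ (Classical.propDecidable <| · = ·)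
    fun i hi j hj c => un i hi j hj (by rw [c, inv_mul_cancel]; exact one_mem _)]
  simp [(Fact.out : p.Prime).one_lt.ne']

theorem Up.ih : ¬ p ∣ (u.H r).relIndex (u.B r) := by
  have r' := r.mono subset_rfl (u.bg r)
  have m1 := (rp1 (u.ses r) r').mu
  have m2 := (rp2 (u.ses r) r').mu
  let φ : u.B r →* (ZMod p × ZMod p × ZMod p)ˣ := MonoidHom.toHomUnits
    { toFun := fun g => (μ (ρ g e), l (ρ g f), oz p g)
      map_one' := Prod.ext m1.1 (Prod.ext m2.1 oz_one)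
      map_mul' := fun a b => Prod.ext (m1.2 _ a.2 _ b.2) (Prod.ext (m2.2 _ a.2 _ b.2) (oz_mul _ _)) }
  have : (u.H r).subgroupOf (u.B r) = φ.ker := Subgroup.ext fun g =>
    ⟨fun m => Units.ext (Prod.ext (u.t1 r _ m) (Prod.ext (u.t2 r _ m) (mem_Gz.1 m.2.2.2))), fun m =>
      show (g : GQ) ∈ u.H r from
      ⟨g.2.1, by rw [← u.ker g.2.2, show μ (ρ g e) = 1 from congrArg (fun x => x.val.1) m, one_smul],
        fun n => by
          rw [u.l_act r g.2, show l (ρ g f) = 1 from congrArg (fun x => x.val.2.1) m, one_mul],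
        mem_Gz.2 (congrArg (fun x => x.val.2.2) m)⟩⟩
  rw [Subgroup.relIndex, this, Subgroup.index_ker]
  intro h
  have := h.trans (Subgroup.card_subgroup_dvd_card φ.range)
  rw [Nat.card_congr MulEquiv.prodUnits.toEquiv, Nat.card_prod,
    Nat.card_congr MulEquiv.prodUnits.toEquiv, Nat.card_prod, Nat.card_eq_fintype_card,
    ZMod.card_units, (Fact.out : p.Prime).dvd_mul, (Fact.out : p.Prime).dvd_mul, or_self,
    or_self] at this
  have h2 := (Fact.out : p.Prime).two_le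
  have := Nat.le_of_dvd (by omega) this
  omega

theorem Up.chn : Chn p Γ (u.B r) (u.H r) (Uk r) := by
  refine ⟨u.uh r, u.hb r, u.bg r, uk_nz r le_rfl, fun g hg h hh => ⟨cjm hg.1 hh.1, ?_, fun n => ?_,
    Gz_normal.conj_mem h hh.2.2.2 g⟩, u.ib r le_rfl u.sg, u.ih r,
    fun g hg n h hh m => ⟨hh.1, ?_, hh.2.2.2⟩⟩
  · rw [cja r hg.1 hh.1, ← u.ker (inv_mem hg).2, map_smul, hh.2.1, u.ker (inv_mem hg).2,
      r.inv hg.1]
  · rw [cja r hg.1 hh.1, u.l_act r hg, hh.2.2.1, ← u.l_act r hg, r.inv hg.1]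
  · have n1 : l (ρ g⁻¹ e) ≠ 0 := fun c => n (inv_mem_iff.1 ⟨inv_mem hg, c⟩)
    have h1 := congrArg (ρ g⁻¹) (u.ker m.2)
    rw [cja r hg hh.1, r.inv' hg, map_smul] at h1
    have h2 := congrArg l h1
    rw [hh.2.2.1, map_smul, smul_eq_mul, mul_eq_right₀ n1] at h2
    rw [h2, one_smul, ← u.dec (ρ g⁻¹ e), map_add, map_smul, map_smul, hh.2.1, add_right_inj] at h1
    refine LinearMap.ext fun x => ?_
    rw [← u.dec x, map_add, map_smul, map_smul, hh.2.1, ← smul_right_injective N n1 h1]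
    rfl

theorem Up.tri : Tri (u.B r) (u.H r) (om p (ZMod p)) N ρ :=
  .cons N ρ (ZMod p) _ _ _ _ (u.ses r) (u.t1 r)
    (fun _ => .inr ⟨s, u.sh r, f, by simp [u.act, u.lf]⟩)
    (.cons (ZMod p) _ Unit (fun _ => 1) _ LinearMap.id 0
      ⟨Function.injective_id, fun _ => ⟨0, rfl⟩, fun n => ⟨fun _ => ⟨n, rfl⟩, fun _ => rfl⟩,
        fun _ _ _ => rfl, fun _ _ _ => rfl⟩ (u.t2 r)
      (fun e => .inl ⟨LinearMap.id, fun g hg n => by rw [← e g hg]; rfl, fun _ => rfl⟩)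
      (.nil Unit _ fun _ => rfl))

/-- two transvections with different lines give minus one -/
theorem Up.neg (lA : A ≤ Γ) (hs : s ∈ A) {g : GQ} (hg : g ∈ A) (n : g ∉ u.B r) :
    ∃ d ∈ A, d ∈ u.B r ∧ d ∈ Gz p ∧ μ (ρ d e) = -1 ∧ l (ρ d f) = -1 := by
  have gΓ := lA hg
  replace n : l (ρ g e) ≠ 0 ∧ l (ρ g⁻¹ e) ≠ 0 :=
    ⟨fun c => n ⟨gΓ, c⟩, fun c => n (inv_mem_iff.1 ⟨inv_mem gΓ, c⟩)⟩
  obtain ⟨x, hx⟩ : ∃ x, x = s ^ (l (ρ g e))⁻¹.val := ⟨_, rfl⟩
  obtain ⟨y, hy⟩ : ∃ y, y = g * s ^ (-(l (ρ g⁻¹ e))⁻¹).val * g⁻¹ := ⟨_, rfl⟩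
  have a1 : x ∈ A ⊓ Gz p := hx ▸ pow_mem (show s ∈ A ⊓ Gz p from ⟨hs, u.gz⟩) _
  have a2 : y ∈ A ⊓ Gz p := hy ▸ ⟨A.mul_mem (A.mul_mem hg (A.pow_mem hs _)) (A.inv_mem hg),
      Gz_normal.conj_mem _ (pow_mem u.gz _) g⟩
  have a : x * y * x ∈ A ⊓ Gz p := mul_mem (mul_mem a1 a2) a1
  have xΓ := lA a1.1
  have yΓ := lA a2.1
  have aΓ := lA a.1
  have x1 : ρ x e = e := by rw [hx, u.pw r, u.le, mul_zero, zero_smul, add_zero]
  have x2 : ρ x (ρ g e) = ρ g e + e := by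
    rw [hx, u.pw r, ZMod.natCast_zmod_val, inv_mul_cancel₀ n.1, one_smul]
  have y1 : ρ y e = e - ρ g e := by
    rw [hy, cja r gΓ (pow_mem u.sg _), u.pw r, ZMod.natCast_zmod_val, neg_mul, inv_mul_cancel₀ n.2,
      map_add, r.inv gΓ, map_smul, neg_one_smul, sub_eq_add_neg]
  have y2 : ρ y (ρ g e) = ρ g e := by
    rw [hy, cja r gΓ (pow_mem u.sg _), r.inv' gΓ, u.pw r, u.le, mul_zero, zero_smul, add_zero]
  have w1 : ρ (x * y * x) e = -ρ g e := by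
    rw [r.mul' (mul_mem xΓ yΓ) xΓ, r.mul' xΓ yΓ, x1, y1, map_sub, x1, x2]; abel
  have w2 : ρ (x * y * x) (ρ g e) = e := by
    rw [r.mul' (mul_mem xΓ yΓ) xΓ, r.mul' xΓ yΓ, x2, map_add, y1, y2, add_sub_cancel, x1]
  have d1 : ρ (x * y * x * (x * y * x)) e = -e := by rw [r.mul' aΓ aΓ, w1, map_neg, w2]
  have d2 : ρ (x * y * x * (x * y * x)) (ρ g e) = -ρ g e := by rw [r.mul' aΓ aΓ, w2, w1]
  have b : x * y * x * (x * y * x) ∈ u.B r :=
    ⟨mul_mem aΓ aΓ, by rw [d1, map_neg, u.le, neg_zero]⟩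
  refine ⟨_, mul_mem a.1 a.1, b, mul_mem a.2 a.2, by rw [d1, map_neg, u.me], ?_⟩
  have := u.l_act r b (ρ g e)
  rw [d2, map_neg] at this
  exact mul_right_cancel₀ n.1 (by rw [← this, neg_one_mul])

/-- every plane is admissible for a large set of primes -/
theorem ex_ok [Module.Finite (ZMod p) N] (c2 : finrank (ZMod p) N ≤ 2) (o : IsOpen (Γ : Set GQ))
    (r : Rp I Γ ρ) (T : Finset ℕ) (pr : ∀ l ∈ T, l = 0 ∨ l.Prime)
    (hI : ∀ g ∈ Γ, g ∈ In T → g ∈ I) : ∃ T' : Finset ℕ, T ⊆ T' ∧ Ok p T' Γ (Uk r) ρ := by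
  have k : ∀ H : Subgroup GQ, Uk r ≤ H → ∃ T' : Finset ℕ, T ⊆ T' ∧ Rp (In T') Γ ρ ∧
      Lg p T' Γ (Uk r) ∧ Bg H T' := fun H le => by
    obtain ⟨T', a, -, b⟩ := lg p Γ (Uk r) H T (uk_le r) (uk_gz r) (uk_nz r le_rfl) (uk_open o r)
      (Subgroup.isOpen_mono le (uk_open o r)) pr
    exact ⟨T', a, r.mono (fun g m => hI g (le_in b.1.lv m).1 (In_anti (Finset.coe_subset.2 a) m))
      le_rfl, b⟩
  obtain h | ⟨s, -, e, f, μ, l, u⟩ := dich c2 o r le_rfl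
  · obtain ⟨T', a, b, c, -⟩ := k _ le_rfl
    exact ⟨T', a, inferInstance, b, c, fun _ m => m.2.1, .inl (pr0 GQ _ N I Γ _ ρ r
      (mt (ZMod.natCast_eq_zero_iff _ p).1 h))⟩
  · obtain ⟨T', a, b, c, d⟩ := k _ (u.uh r)
    exact ⟨T', a, inferInstance, b, c, fun _ m => m.2.1,
      .inr ⟨_, _, u.chn r, u.hz r, d, u.tri r⟩⟩

end Vale.Agent.P014Y.Pr.Co
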