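import Vale.Agent.P014Y.Pr.Lo0
import Vale.Agent.P014U.Pq.Lo1

/-!
# P014Y, block PRES: the local inequalities for planes, open subgroup (helper24)
-/

set_option linter.all false

noncomputable section

namespace Vale.Agent.P014Y.Pr.Co

open NumberField Module Cardinal
open Vale.Agent.P022 Vale.Agent.P022.C Vale.Agent.P022.H916 Vale.Agent.P022K Vale.Agent.P022K.G2
open Vale.Agent.P022K.G2.Cn Vale.Agent.P022K.G2.Hb Vale.Agent.P022K.G2.Cx
open Vale.Agent.P027M.S (Inert)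
open Vale.Agent.P022D.W (dec inP_le_dec exists_phi phi_mem dec_gen)
open Vale.Agent.P022.H443 (inP)
open Vale.Agent.P022E.GW (Ov)
open Vale.Agent.P014U.G2 (nil uns dim1 dimt)
open Vale.Agent.P014U.G2.Dm (B)
open Vale.Agent.P004F.Pr (ex_fun rq_bot)
open Vale.Agent.P014U.Pq.Co (dt cjl om_oz h2_congr step_e h2_ext)
open scoped Classical

section cnt

variable {G Ω ι : Type} [Group G] [MulAction G Ω] {Γ B : Subgroup G} {x₀ : Ω} {y : ι → Ω}

theorem reps_orb : Reps Γ {z | ∃ g ∈ Γ, z = g • x₀} fun _ : Unit => x₀ :=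
  ⟨fun _ g hg => ⟨g, hg, rfl⟩, fun _ ⟨g, hg, e⟩ => ⟨(), g, hg, e⟩, fun _ _ _ _ _ => rfl⟩

/-- the orbits of a subgroup on one orbit -/
theorem cntG [Fintype ι] (le : B ≤ Γ) (f : B.relIndex Γ ≠ 0)
    (h : Reps B {z | ∃ g ∈ Γ, z = g • x₀} y) : ∑ j, B.relIndex (Dv Γ y j) = B.relIndex Γ := by
  have h' : Reps (G := Γ) (B.subgroupOf Γ) {z | ∃ g ∈ Γ, z = g • x₀} y :=
    ⟨fun i g hg => h.mem i g hg, fun z hz => by
      obtain ⟨i, g, hg, e⟩ := h.ex z hz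
      exact ⟨i, ⟨g, le hg⟩, hg, e⟩, fun i j g hg e => h.un i j g hg e⟩
  have := Rps.cnt h' f (O := {z | ∃ g ∈ Γ, z = g • x₀}) (x₀ := x₀)
    (fun z => ⟨fun ⟨g, hg, e⟩ => ⟨⟨g, hg⟩, e⟩, fun ⟨g, e⟩ => ⟨g, g.2, e⟩⟩) subset_rfl
  refine Eq.trans (Finset.sum_congr rfl fun j _ => ?_) this
  rw [if_pos (Rps.self h j), Dv, ← Subgroup.relIndex_subgroupOf (L := Γ) inf_le_left]
  congr 1
  exact Subgroup.ext fun g => and_iff_right g.2

theorem ri_smul {g : G} (hg : g ∈ Γ) : Γ.relIndex (MulAction.stabilizer G (g • x₀)) =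
    Γ.relIndex (MulAction.stabilizer G x₀) := by
  have e : Γ.map (MulAut.conj g).toMonoidHom = Γ := Subgroup.ext fun a => ⟨by
    rintro ⟨b, hb, rfl⟩
    exact mul_mem (mul_mem hg hb) (inv_mem hg), fun h => ⟨g⁻¹ * a * g,
      mul_mem (mul_mem (inv_mem hg) h) hg, by simp [mul_assoc]⟩⟩
  rw [MulAction.stabilizer_smul_eq_stabilizer_map_conj, ← Subgroup.relIndex_map_map_of_injective
    (f := (MulAut.conj g).toMonoidHom) Γ (MulAction.stabilizer G x₀) (MulAut.conj g).injective, e]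

theorem ri_mul (le : B ≤ Γ) (S : Subgroup G) :
    B.relIndex S = B.relIndex (Γ ⊓ S) * Γ.relIndex S := by
  rw [← Subgroup.inf_relIndex_right Γ S, ← Subgroup.inf_relIndex_right B (Γ ⊓ S),
    Subgroup.relIndex_mul_relIndex _ _ _ inf_le_right inf_le_right, ← inf_assoc,
    inf_eq_left.2 le, Subgroup.inf_relIndex_right]

end cnt

variable {p : ℕ} [Fact p.Prime] {N : Type} [AddCommGroup N] [Module (ZMod p) N] {I : Set GQ}
  {ρ : GQ → End (ZMod p) N} {Γ U A : Subgroup GQ} {l : ℕ} {P : Ideal (𝓞 Qb)} {T : Finset ℕ}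

/-- **the local lower bound at one place** -/
theorem ll (h : p ≠ 2) (ok : Ok p T Γ U ρ) (o : Ov l P) :
    rk (Hm (Γ ⊓ dec P) ρ (om p (ZMod p))) +
      (1 + (if l = p then Γ.relIndex (dec P) else 0 : ℕ)) * Module.rank (ZMod p) N ≤
      rk (Z1 ∅ (Γ ⊓ dec P) ρ) := by
  have oU := le_open ok.lg.lv
  have oΓ := Subgroup.isOpen_mono ok.lg.le oU
  obtain ⟨f, r, L, tu, j | ⟨B, H, c, hz, bg, t⟩⟩ := ok
  · exact (lpc p _ N Γ U l P ρ oΓ oU L.uz o (pd_res (pd_of L f r j tu) inf_le_left)).ge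
  have ub := c.uh.trans c.hb
  have oB := Subgroup.isOpen_mono ub oU
  have lv := L.lv.mono subset_rfl (le_top (a := Γ))
  have iB := (lv.up ub).relIndex
  obtain ⟨X, _, _, ξ, fX, rX, tX, jX, -, -, s3⟩ := stb pr0 prt p GQ _ N _ Γ B H U ρ f r c lv tu
  have hx := reps_orb (Γ := Γ) (x₀ := fp P)
  obtain ⟨κ, _, y, hy⟩ := reps GQ Plc Unit Γ B _ _ hx c.bg iB
  obtain ⟨s1, s2⟩ := s3 Plc Unit κ _ _ y hx hy
  replace s2 := s2 _ (mu_om (p := p) (ZMod p) Γ)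
  have hx' := reps_orb (Γ := Γ) (x₀ := (1 : GQ))
  obtain ⟨κ', _, y', hy'⟩ := reps GQ GQ Unit Γ B _ _ hx' c.bg iB
  obtain ⟨s4, -⟩ := s3 GQ Unit κ' _ _ y' hx' hy'
  have z0 : ∀ (M : Type) [AddCommGroup M] [Module (ZMod p) M] (σ : GQ → End (ZMod p) M), σ 1 = 1 →
      rk (Z1 ∅ (Dv Γ (fun _ : Unit => (1 : GQ)) default) σ) = 0 := fun M _ _ σ e =>
    Submodule.rank_eq_zero.2 ((Submodule.eq_bot_iff _).2 fun z hz => funext fun g => by
      by_cases a : g = 1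
      · rw [a]; exact Z1.one hz e
      · exact hz.2.1 g fun b => a ((mul_one g).symm.trans b.2))
  have s5 : Fintype.card κ' ≤ B.relIndex Γ := by
    rw [← cntG c.bg iB hy', Fintype.card, Finset.card_eq_sum_ones]
    exact Finset.sum_le_sum fun j _ => Nat.pos_of_ne_zero (le_of_open oB _).relIndex
  have b : ∀ j, rk (Hm (Dv B y j) ρ (om p (ZMod p))) + Module.rank (ZMod p) N +
      ((if l = p then Γ.relIndex (dec P) else 0) * B.relIndex (Dv Γ y j) : ℕ) *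
        Module.rank (ZMod p) N ≤ rk (Z1 ∅ (Dv B y j) ρ) := fun j => by
    obtain ⟨g, hg, e⟩ := Rps.self hy j
    have e1 := ri_mul c.bg (St (y j))
    rw [e, ri_smul hg, show MulAction.stabilizer GQ (fp P) = dec P from st_fp P, ← e] at e1
    rw [smul_fp] at e
    have := llbB (lpc p) (dt h) L c hz (GW.ov_smul o g) t (r.mono subset_rfl c.bg)
    rw [P004F.Pr.dv_fp e, add_assoc, ← one_add_mul, ite_mul, zero_mul, mul_comm (Γ.relIndex _), Dv,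
      ← e1, e, st_fp]
    convert this
  have b1 := Finset.sum_le_sum fun j (_ : j ∈ Finset.univ) => b j
  rw [Finset.sum_add_distrib, Finset.sum_add_distrib, ← Finset.sum_mul _ _ (Module.rank _ N),
    ← Nat.cast_sum, ← Finset.mul_sum, cntG c.bg iB hy, ← s2, Finset.sum_const,
    nsmul_eq_mul, Finset.card_univ] at b1
  have lX := lpc p _ X Γ U l P ξ oΓ oU L.uz o (pd_res (pd_of L fX rX jX tX) inf_le_left)
  simp only [Fintype.sum_unique, Fintype.card_unique, Nat.cast_one, one_mul] at s1 s4 b1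
  rw [z0 _ _ r.one, z0 _ _ rX.one, zero_add, zero_add] at s4
  have s6 := ((self_le_add_left _ _).trans s4.ge).trans
    (mul_le_mul_left (Nat.cast_le.2 s5) (Module.rank (ZMod p) N))
  rw [Dv, show MulAction.stabilizer GQ (fp P) = dec P from st_fp P] at s1 b1
  rw [lX] at s1
  generalize (if l = p then Γ.relIndex (dec P) else 0 : ℕ) = d at *
  refine can (add_lt_aleph0 (add_lt_aleph0 (fin_hm (A := Γ ⊓ dec P) (ρ := ξ)
    (ω := om p (ZMod p)) fX) (fin_cr fX (1 + d))) (fin_cr f (Fintype.card κ))) ?_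
  rw [Nat.cast_add, Nat.cast_one, ← add_assoc (rk (Z1 ∅ _ ρ)), ← add_assoc (rk (Z1 ∅ _ ρ)),
    add_assoc (rk (Z1 ∅ _ ρ)), s1]
  refine le_trans ?_ (add_le_add_left b1 _)
  rw [Nat.cast_mul, mul_assoc (d : Cardinal)]
  exact le_of_eq_of_le (by ring)
    (add_le_add_left (add_le_add_right (mul_le_mul_right s6 (d : Cardinal)) _) _)

theorem pdk (f : Module.Finite (ZMod p) N) (oΓ : IsOpen (Γ : Set GQ)) (r : Rp I Γ ρ) (le : A ≤ Γ)
    (od : ¬ p ∣ (Uk r).relIndex A) : Pd ∅ A (Uk r) ρ (om p (ZMod p)) :=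
  have r' := r.mono (Set.empty_subset _) le
  ⟨f, r', pr0 GQ _ N ∅ A _ ρ r' (mt (ZMod.natCast_eq_zero_iff _ p).1 od), uk_nz r le,
    le_of_open (uk_open oΓ r) A, fun _ _ m => m.2.1, mu_om _ A, fun _ _ m => (om_eq_one _).2 m.2.2⟩

/-- the local invariant when the image has order prime to `p` -/
theorem inv_ex (h : p ≠ 2) (fN : Module.Finite (ZMod p) N) (oΓ : IsOpen (Γ : Set GQ))
    (r : Rp I Γ ρ) (o : Ov l P) (od : ¬ p ∣ (Uk r).relIndex (Γ ⊓ dec P)) :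
    ∃ f : (GQ → GQ → N) →ₗ[ZMod p] N,
      (∀ z ∈ Z2 ∅ (Γ ⊓ dec P) ρ, f z ∈ H0 (Γ ⊓ dec P) ρ (om p (ZMod p))) ∧
      (∀ z ∈ Z2 ∅ (Γ ⊓ dec P) ρ, f z = 0 → z ∈ B2 ∅ (Γ ⊓ dec P) ρ) ∧
      ∀ z (φ : Dual (ZMod p) N), (fun g j => φ (z g j)) ∈ B p (Uk r ⊓ dec P) → φ (f z) = 0 := by
  have d := pdk fN oΓ r inf_le_left od
  have zU := uk_gz r
  obtain ⟨L, l1, l2⟩ := ex_fun ((h2_congr (A := Uk r ⊓ dec P) fun g m =>
    (ch_om (ZMod p) (zU m.1)).symm).trans_le (dt h _ _ l P _ (uk_open oΓ r) o (rp_om _ _)).1)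
  let b := Module.finBasis (ZMod p) N
  let f : (GQ → GQ → N) →ₗ[ZMod p] N :=
    ∑ i, (L ∘ₗ ((b.coord i).compLeft GQ).compLeft GQ).smulRight (b i)
  have hf : ∀ z (φ : Dual (ZMod p) N), φ (f z) = L fun g j => φ (z g j) := fun z φ => by
    have e : (fun g j => φ (z g j)) = ∑ i, φ (b i) • fun g j => b.coord i (z g j) :=
      funext fun g => funext fun j => by
        conv_lhs => rw [← b.sum_repr (z g j)]
        simp only [map_sum, map_smul, Finset.sum_apply, Pi.smul_apply, smul_eq_mul]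
        exact Finset.sum_congr rfl fun _ _ => mul_comm _ _
    rw [e]
    simp only [f, LinearMap.sum_apply, map_sum, LinearMap.smulRight_apply, map_smul, smul_eq_mul,
      mul_comm]
    rfl
  have le : Uk r ⊓ dec P ≤ Γ ⊓ dec P := inf_le_inf_right _ (uk_le r)
  have zz : ∀ z ∈ Z2 ∅ (Γ ⊓ dec P) ρ, ∀ φ : Dual (ZMod p) N,
      (fun g j => φ (z g j)) ∈ Z2 ∅ (Uk r ⊓ dec P) (tp p) := fun z hz φ =>
    Z2.amap (Z2.mono hz subset_rfl le) φ.toAddMonoidHom fun g hg n => by rw [hg.1.2.1]; rfl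
  refine ⟨f, fun z hz g hg => ?_, fun z hz h0 => ?_, fun z φ m => (hf z φ).trans (l1 _ m)⟩
  · have : f z = oz p g • ρ g⁻¹ (f z) := by
      rw [← sub_eq_zero]
      refine (Module.forall_dual_apply_eq_zero_iff (ZMod p) _).1 fun φ => ?_
      have c3 := l1 _ (add_mem (B2.amap (ρ' := tp p) (B2.mono (cj0 GQ _ N ∅ _ ρ z g d.rp hz hg)
        subset_rfl le) φ.toAddMonoidHom fun a ha n => by rw [ha.1.2.1]; rfl) (cjl h oΓ
          (uk_open oΓ r) (uk_le r) zU (uk_nz r le_rfl) o od (zz z hz (φ ∘ₗ ρ g⁻¹)) hg))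
      rw [map_sub, map_smul, hf, show φ (ρ g⁻¹ (f z)) = _ from hf z (φ ∘ₗ ρ g⁻¹), ← map_smul,
        ← map_sub, ← c3]
      congr 1
      funext x y
      simp
    rw [om_oz]
    conv_lhs => rw [this, map_smul, r.inv hg.1]
  · refine tr2 GQ _ N ∅ _ _ ρ z d.rp d.prj d.le hz (B2.mono (A := Γ ⊓ dec P ⊓ Uk r)
      (Γ := Uk r ⊓ dec P) ?_ subset_rfl fun _ m => ⟨m.2, m.1.2⟩)
    have e : z = ∑ i, fun g j => b.coord i (z g j) • b i := funext fun g => funext fun j => by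
      rw [Finset.sum_apply, Finset.sum_apply]; exact (b.sum_repr (z g j)).symm
    rw [e]
    refine Submodule.sum_mem _ fun i _ => B2.amap (l2 _ (zz z hz (b.coord i)) ?_)
      (LinearMap.toSpanSingleton (ZMod p) N (b i)).toAddMonoidHom fun g hg n => by
        rw [hg.1.2.1]; rfl
    rw [← hf, h0, map_zero]

/-- **the local Euler characteristic** -/
theorem eu (h : p ≠ 2) (c2 : finrank (ZMod p) N ≤ 2) (oΓ : IsOpen (Γ : Set GQ)) (r : Rp I Γ ρ)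
    (ok : Ok p T Γ (Uk r) ρ) (o : Ov l P) : h2 ∅ (Γ ⊓ dec P) ρ +
      (1 + (if l = p then Γ.relIndex (dec P) else 0 : ℕ)) * Module.rank (ZMod p) N ≤
      rk (Z1 ∅ (Γ ⊓ dec P) ρ) := by
  have fN := ok.fin
  have rD := r.mono (Set.empty_subset _) (inf_le_left (b := dec P))
  obtain od | ⟨s, hs, e, f, μ, ν, u⟩ := dich c2 oΓ r (inf_le_left (b := dec P))
  · have d := pdk fN oΓ r inf_le_left od
    obtain ⟨f, f1, f2, -⟩ := inv_ex h fN oΓ r o od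
    rw [lpc p _ N Γ _ l P ρ oΓ (uk_open oΓ r) (uk_gz r) o d,
      ← prd GQ _ N ∅ _ _ ρ _ fN d.rp d.prj d.nz d.tri d.mu d.om, ← rq_bot]
    exact add_le_add_left (rq_le f f1 f2) _
  have oH := Subgroup.isOpen_mono (u.uh r) (uk_open oΓ r)
  have oB := Subgroup.isOpen_mono (u.hb r) oH
  have rB := ok.rp.mono subset_rfl (u.bg r)
  have S := u.ses r
  have k1 := dt h _ _ l P _ oB o ((rp1 S rB).mono (Set.empty_subset _) le_rfl)
  have k2 := dt h _ _ l P _ oB o ((rp2 S rB).mono (Set.empty_subset _) le_rfl)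
  by_cases le : Γ ⊓ dec P ≤ u.B r
  · have eB : u.B r ⊓ dec P = Γ ⊓ dec P :=
      le_antisymm (inf_le_inf_right _ (u.bg r)) (le_inf le inf_le_right)
    have hz := u.hz r
    have k : ∀ θ : GQ → ZMod p, (h2 ∅ (u.B r ⊓ dec P) (ch θ) ≤ 1 ∧
        ((∃ g ∈ u.B r ⊓ dec P, θ g ≠ om p _ g) → h2 ∅ (u.B r ⊓ dec P) (ch θ) = 0)) →
        h2 ∅ (Γ ⊓ dec P) (ch θ) ≤ rk (Hm (Γ ⊓ dec P) (ch θ) (om p _)) := fun θ k => by
      rw [eB] at k
      by_cases e : ∀ g ∈ Γ ⊓ dec P, θ g = om p _ g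
      · exact k.1.trans (one_hm e)
      · push Not at e
        exact (k.2 e).trans_le bot_le
    have s := (step_e (ses_mono S le) rD).trans
      (add_le_add_left (add_le_add (k _ k1) (k _ k2)) _)
    rw [lpc p _ _ Γ _ l P _ oΓ oH hz o (pd_res (pd_ch ok.lg (u.chn r) hz (rp1 S rB) (u.t1 r)) le),
      lpc p _ _ Γ _ l P _ oΓ oH hz o (pd_res (pd_ch ok.lg (u.chn r) hz (rp2 S rB) (u.t2 r)) le)]
      at s
    rw [rank_ses S]
    refine can (add_lt_aleph0 (hm_one.trans_lt one_lt_aleph0) (hm_one.trans_lt one_lt_aleph0))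
      (le_of_eq_of_le ?_ (s.trans_eq (add_comm _ _)))
    ring
  obtain ⟨g, hg, n⟩ := SetLike.not_le_iff_exists.1 le
  obtain ⟨d, d1, d2, d3, d4, d5⟩ := u.neg r inf_le_left hs hg n
  have ne : (-1 : ZMod p) ≠ om p _ d := by
    rw [(om_eq_one _).2 d3]
    haveI : Fact (2 < p) := ⟨lt_of_le_of_ne (Fact.out : p.Prime).two_le h.symm⟩
    exact ZMod.neg_one_ne_one
  have k := h2_ext (ses_mono S inf_le_left)
    (r.mono (Set.empty_subset _) (inf_le_left.trans (u.bg r)))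
    (rq_eq_zero.1 (k1.2 ⟨d, ⟨d2, d1.2⟩, d4 ▸ ne⟩)) (rq_eq_zero.1 (k2.2 ⟨d, ⟨d2, d1.2⟩, d5 ▸ ne⟩))
  rw [h2, rq_eq_zero.2 fun z hz => tr2 GQ _ N ∅ _ (u.B r) ρ z rD (pr0 GQ _ N ∅ _ _ ρ rD
    (mt (ZMod.natCast_eq_zero_iff _ p).1 (u.ib r inf_le_left hs))) (le_of_open oB _) hz (B2.mono
      (k (Z2.mono hz subset_rfl (inf_le_inf_right _ (u.bg r)))) subset_rfl
        fun _ m => ⟨m.2, m.1.2⟩)]
  exact (add_le_add_left bot_le _).trans (ll h ok o)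

open P022E.GW.Unr in
/-- a degree on the decomposition group of the field of `Γ` -/
theorem dg (oΓ : IsOpen (Γ : Set GQ)) (o : Ov l P) {W : Subgroup GQ} (oW : IsOpen (W : Set GQ))
    {m : ℕ} (hm : m ≠ 0) : ∃ ψ ∈ Γ ⊓ dec P, ∃ n ≠ 0, ψ ^ n ∈ W ∧ ∃ (δ : GQ → ZMod (n * m))
      (V : Subgroup GQ), IsOpen (V : Set GQ) ∧
      (∀ g ∈ Γ ⊓ dec P, ∀ h ∈ Γ ⊓ dec P, δ (g * h) = δ g + δ h) ∧
      (∀ v ∈ V, v ∈ dec P → δ v = 0) ∧ ∀ g ∈ Γ ⊓ dec P, ∃ v ∈ W, ∃ s ∈ Γ, Inert P s ∧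
        (ψ ^ (δ g).val)⁻¹ * g = v * s := by
  obtain ⟨hl, hP, hPl⟩ := o
  obtain ⟨φ, hφ⟩ := exists_phi hl hP hPl
  obtain ⟨f, ψ, f0, hψ, hg⟩ := gen hl hP hPl hφ oΓ
  obtain ⟨a, a0, ha⟩ := ex_pow (W := W ⊓ Γ) (oW.inter oΓ) φ
  obtain ⟨b, b0, hb⟩ := ex_pow oW ψ.1
  have M0 : a * b * m ≠ 0 := mul_ne_zero (mul_ne_zero a0 b0) hm
  obtain ⟨δ, V, hV, h1, h2, h3, h4⟩ := P022E.GW.Unr.deg hl hP hPl hφ (mul_ne_zero f0 M0)
  have hφd := phi_mem hl hP hφ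
  have dψ : δ ψ.1 = f := by
    rw [← mul_inv_cancel_left (φ ^ f) ψ.1, h1 _ ((dec P).pow_mem hφd f) _ (inP_le_dec hψ),
      dpow hl hP hφ h1 h2 h3, h3 _ hψ, add_zero]
  have dk : ∀ k : ℕ, δ (ψ.1 ^ k) = (f * k : ℕ) := fun k => by
    induction k with
    | zero => rw [pow_zero, mul_zero, Nat.cast_zero]; exact h3 1 (inP P).one_mem
    | succ k ih =>
      rw [pow_succ, h1 _ ((dec P).pow_mem ψ.2.2 k) _ ψ.2.2, ih, dψ, mul_add, mul_one, Nat.cast_add]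
  let u : GQ → ZMod (a * b * m) := fun g => (((δ g).val / f : ℕ) : ZMod (a * b * m))
  have hu : ∀ (g : GQ) (k : ℕ), δ g = (f * k : ℕ) → u g = k := fun g k h => by
    simp only [u, h]
    rw [ZMod.val_natCast, Nat.mul_mod_mul_left, Nat.mul_div_cancel_left _ (Nat.pos_of_ne_zero f0),
      ZMod.natCast_mod]
  have ex : ∀ g ∈ Γ ⊓ dec P, ∃ k : ℕ, δ g = (f * k : ℕ) := fun g m => by
    obtain ⟨k, v, s, hv, hs, e⟩ := hg V hV ⟨g, m⟩
    have e' : g = v.1 * ψ.1 ^ k * s.1 := congrArg Subtype.val e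
    have m1 := (dec P).pow_mem ψ.2.2 k
    exact ⟨k, by rw [e', h1 _ (mul_mem v.2.2 m1) _ s.2.2, h1 _ v.2.2 _ m1,
      h4 _ hv v.2.2, h3 _ hs, dk, zero_add, add_zero]⟩
  refine ⟨ψ.1, ψ.2, a * b, mul_ne_zero a0 b0, by rw [mul_comm, pow_mul]; exact pow_mem hb a, u, V,
    hV, fun g hg h hh => ?_, fun v hv m => ?_, fun g hg => ?_⟩
  · obtain ⟨j, hj⟩ := ex g hg
    obtain ⟨k, hk⟩ := ex h hh
    rw [hu g j hj, hu h k hk, ← Nat.cast_add]
    exact hu _ _ (by rw [h1 _ hg.2 _ hh.2, hj, hk, mul_add, Nat.cast_add])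
  · rw [← Nat.cast_zero]
    exact hu _ _ (by rw [h4 _ hv m]; simp)
  obtain ⟨k, hk⟩ := ex g hg
  have m1 := pow_mem ψ.2 (u g).val
  have m2 := mul_mem (inv_mem m1) hg
  have := h1 _ m1.2 _ m2.2
  rw [mul_inv_cancel_left, dk, hk, hu g k hk, ZMod.val_natCast, ← Nat.mul_mod_mul_left,
    ZMod.natCast_mod, left_eq_add, ← ZMod.val_natCast, ← hu g k hk] at this
  obtain ⟨v, hv, s, hs, c⟩ := split hl hP hPl hφ (n := a) ⟨f * (b * m), by ring⟩ hV (oW.inter oΓ)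
    h1 h2 h3 h4 ha m2.2 (j := 0) (by simpa using this)
  exact ⟨v, hv.1, s, (Γ.mul_mem_cancel_left hv.2).1 (c ▸ m2.1), hs, c⟩

/-- **unramified cocycles**, any unramified module -/
theorem ur (oΓ : IsOpen (Γ : Set GQ)) (r : Rp I Γ ρ) {z : GQ → GQ → N} (hz : z ∈ Z2 I Γ ρ)
    (o : Ov l P) (hI : ∀ i ∈ Γ, Inert P i → i ∈ I) : z ∈ B2 ∅ (Γ ⊓ dec P) ρ := by
  obtain ⟨W₁, a1, a2⟩ := r.lv
  obtain ⟨W₂, a3, a4⟩ := hz.2
  have hW := a1.inf a3
  obtain ⟨φ, hφ, n, hn, hφn, δ, V, hV, h1, h4, h5⟩ := dg oΓ o hW.opn (Fact.out : p.Prime).ne_zero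
  haveI : NeZero (n * p) := ⟨mul_ne_zero hn (Fact.out : p.Prime).ne_zero⟩
  have pm := fun a : ℕ => pow_mem hφ.1 a
  have one := one_mem Γ
  have z1 : ∀ g ∈ Γ, z g 1 = ρ g (z 1 1) := fun g hg => by
    have := hz.1 g hg 1 one 1 one
    rw [mul_one, mul_one] at this
    exact (add_right_cancel this).symm
  let e : ℕ → N := fun k => z 1 1 - ∑ j ∈ Finset.range k, z (φ ^ j) φ
  have ea : ∀ a b, e (a + b) = e a + ρ (φ ^ a) (e b) - z (φ ^ a) (φ ^ b) := fun a b => by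
    induction b with
    | zero => simp [e, z1 (φ ^ a) (pm a)]
    | succ b ih =>
      have := hz.1 (φ ^ a) (pm a) (φ ^ b) (pm b) φ hφ.1
      rw [← pow_succ, ← pow_add] at this
      simp only [e, ← add_assoc a b 1, Finset.sum_range_succ, map_sub, map_add] at ih ⊢
      linear_combination (norm := abel1) ih + this
  have en : ∀ j a, e (a + n * j) = e a + j • ρ (φ ^ a) (e n - z 1 1) := fun j a => by
    induction j with
    | zero => simp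
    | succ j ih =>
      have := (a4 (φ ^ (a + n * j)) (pm _) 1 one _ (pm n) hφn.2).2
      rw [one_mul, z1 _ (pm _)] at this
      rw [mul_add, mul_one, ← add_assoc, ea, this, ih, pow_add, r.mul _ (pm _) _ (pm _), pow_mul,
        a2 _ (pow_mem (pm n) j) (pow_mem hφn.1 j), mul_one, succ_nsmul, map_sub]
      abel
  have ep : ∀ a, e (a % (n * p)) = e a := fun a => by
    conv_rhs => rw [← Nat.mod_add_div a (n * p), mul_assoc, en, mul_nsmul', ← Nat.cast_smul_eq_nsmul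
      (ZMod p) p, ZMod.natCast_self, zero_smul, add_zero]
  have w : ∀ g ∈ Γ ⊓ dec P, (φ ^ (δ g).val)⁻¹ * g ∈ W₁ ⊓ W₂ := fun g hg => by
    obtain ⟨v, hv, s, sΓ, hs, c⟩ := h5 g hg
    exact c ▸ mul_mem hv (hW.sub (hI s sΓ hs))
  have w' : ∀ g ∈ Γ ⊓ dec P, (φ ^ (δ g).val)⁻¹ * g ∈ Γ := fun g hg =>
    mul_mem (inv_mem (pm _)) hg.1
  obtain ⟨V', b1, b2⟩ := ex_lv' hV
  refine ⟨fun g => e (δ g).val, ⟨V', b1, fun g hg v hv m => by
    beta_reduce; rw [h1 g hg v hv, h4 v (b2 m) hv.2, add_zero]⟩, fun g hg j hj => ?_⟩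
  have e1 := (a4 (φ ^ (δ g).val) (pm _) j hj.1 _ (w' g hg) (w g hg).2).1
  have e2 := (a4 (φ ^ (δ g).val) (pm _) (φ ^ (δ j).val) (pm _) _ (w' j hj) (w j hj).2).2
  have e3 := r.mul (φ ^ (δ g).val) (pm _) _ (w' g hg)
  rw [mul_inv_cancel_left] at e1 e2 e3
  rw [a2 _ (w' g hg) (w g hg).1, mul_one] at e3
  rw [d1_apply, e1, e2, e3, h1 g hg j hj, ZMod.val_add, ep, ea]
  abel

/-- invariants and coinvariants of an unramified module -/
theorem h0_le (f : Module.Finite (ZMod p) N) (oΓ : IsOpen (Γ : Set GQ)) (r : Rp I Γ ρ)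
    (o : Ov l P) (hl : l ≠ p) (hI : ∀ i ∈ Γ, Inert P i → i ∈ I) :
    rk (H0 (Γ ⊓ dec P) ρ (om p (ZMod p))) ≤ rk (Hm (Γ ⊓ dec P) ρ (om p (ZMod p))) := by
  obtain ⟨φ, hφ, n, -, -, δ, -, -, -, -, h5⟩ := dg oΓ o (uk_open oΓ r) one_ne_zero
  let A : End (ZMod p) N := ρ φ - om p (ZMod p) φ • 1
  refine (Submodule.rank_mono (s := H0 (Γ ⊓ dec P) ρ (om p _)) (t := LinearMap.ker A) fun n hn =>
    sub_eq_zero.2 (hn φ hφ)).trans (le_of_eq_of_le ?_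
      (Submodule.rank_mono (s := (LinearMap.range A).dualAnnihilator) fun f hf g hg => ?_))
  · rw [← Module.finrank_eq_rank, ← Module.finrank_eq_rank]
    have h1 := LinearMap.finrank_range_add_finrank_ker A
    have h2 := Subspace.finrank_add_finrank_dualAnnihilator_eq (LinearMap.range A)
    congr 1
    omega
  have k : ∀ (a : ℕ) n, f (ρ (φ ^ a) n) = om p _ (φ ^ a) * f n := fun a => by
    induction a with
    | zero => simp [r.one, om_one]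
    | succ a ih =>
      intro n
      have := (Submodule.mem_dualAnnihilator _).1 hf _ ⟨ρ (φ ^ a) n, rfl⟩
      simp only [A, LinearMap.sub_apply, LinearMap.smul_apply, End.one_apply, map_sub, map_smul,
        smul_eq_mul, sub_eq_zero] at this
      rw [pow_succ', r.mul' hφ.1 (pow_mem hφ.1 a), this, ih, om_mul, mul_assoc]
  obtain ⟨u, hu, s, sΓ, hs, c⟩ := h5 g hg
  generalize (δ g).val = a at c
  intro n
  rw [inv_mul_eq_iff_eq_mul.1 c, r.mul' (pow_mem hφ.1 _) (mul_mem hu.1 sΓ), r.mul' hu.1 sΓ, hu.2.1,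
    rp_in r (hI s sΓ hs) sΓ, om_mul, om_mul, (om_eq_one _).2 hu.2.2,
    (om_eq_one _).2 ((tam p l P o hl).1 s hs), one_mul, mul_one]
  exact k _ n

/-- a class which is trivial outside one tame place of degree one is trivial there -/
theorem one1 (h : p ≠ 2) (hO : ONE p) (oΓ : IsOpen (Γ : Set GQ)) (o : Ov l P) (hl : l ≠ p)
    (le : dec P ≤ Γ ⊓ Gz p) {z : GQ → GQ → ZMod p} (hz : z ∈ Z2 ∅ Γ (ch (om p (ZMod p))))
    (t : ∀ x ∈ Ab Set.univ, (∀ g ∈ Γ, x ≠ g • fp P) → z ∈ B2 ∅ (Γ ⊓ St x) (ch (om p (ZMod p)))) :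
    z ∈ B p (dec P) := by
  have e : Γ ⊓ Gz p ⊓ dec P = dec P := inf_eq_right.2 le
  have oH : IsOpen ((Γ ⊓ Gz p : Subgroup GQ) : Set GQ) := oΓ.inter Gz_open
  obtain ⟨φ, hφ⟩ := exists_phi o.1 o.2.1 o.2.2
  obtain ⟨u, u1, u2, σ, hσ, u3⟩ := uch p (Γ ⊓ Gz p) l P oH o
  obtain ⟨β, b1, b2⟩ := dim1 (nil h) (Γ ⊓ Gz p) l P u z oH inf_le_right o u1 u2
    ⟨σ, hσ, u3 ▸ one_ne_zero⟩ (Z2.congr (Z2.mono hz subset_rfl (inf_le_left.trans inf_le_left))
      (fun _ _ _ _ => rfl) fun g m => (ch_om _ m.1.2).symm)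
  have ui : ∀ g, Inert P g → u g = 0 := fun g hg => u2 g (le (inP_le_dec hg)) hg
  obtain ⟨s, hs⟩ := (tam p l P o hl).2.2 (ZMod p) (ZMod p) β (fun g j hg hj => b1.1 g
    (e.ge (inP_le_dec hg)) j (e.ge (inP_le_dec hj))) (b1.2.imp fun W hW =>
      ⟨hW.1, fun w m hw => hW.2 w (e.ge (inP_le_dec hw)) m⟩)
  have k := hO (ZMod p) Γ z Unit (fun _ => l) (fun _ => P) (fun _ => φ) (fun _ => u) (fun _ => β)
    (fun _ => s) oΓ hz (fun _ => ⟨o, hl, hφ, le⟩)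
    (fun _ _ _ _ _ => rfl) (fun _ => ⟨e ▸ u1, e ▸ b1, fun g hg => ⟨ui g hg, hs g hg⟩, e ▸ b2⟩)
    fun x hx n => t x hx (n ())
  rw [Fintype.sum_unique] at k
  have s0 : s = 0 := (mul_eq_zero.1 k).resolve_left fun c =>
    one_ne_zero (u3.symm.trans (unr_zero o hφ (e ▸ u1) ui c hσ.2))
  have := add_mem b2 (unr p _ (Γ ⊓ Gz p) l P _ oH o (cup_z2 u1 b1) fun g hg j hj i hi a => by
    have m : i ∈ Γ ⊓ Gz p ⊓ dec P := ⟨hi, inP_le_dec a⟩
    simp only [cup]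
    rw [u1.1 g hg i m, b1.1 j hj i m, ui i a, hs i a, s0, smul_zero, add_zero, add_zero]
    exact ⟨rfl, rfl⟩)
  rwa [sub_add_cancel, e] at this

end Vale.Agent.P014Y.Pr.Co
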